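import Mathlib
import Crest.Prelude.Def_MarkovType

/-!
Markov type implies the corresponding inequality for antisymmetric edge labels on a finite action
of a free group.
-/

set_option autoImplicit false

namespace Crest.Agent.R140

open Finset Crest.AnalysisR

/-- Prepending a letter to a word. -/
def wcons {Λ : Type} (ℓ : Λ) (w : ℕ → Λ) : ℕ → Λ
  | 0 => ℓ
  | i + 1 => w i

/-- Average over uniformly random words of length `t`. -/
noncomputable def avgW {Λ : Type} [Fintype Λ] [Inhabited Λ] : ℕ → ((ℕ → Λ) → ℝ) → ℝ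
  | 0, G => G fun _ => default
  | t + 1, G => (∑ ℓ, avgW t fun w => G (wcons ℓ w)) / Fintype.card Λ

/-- The vertices visited by the walk driven by a word. -/
def vtx {Λ V : Type} (T : Λ → V → V) (z : V) (w : ℕ → Λ) : ℕ → V
  | 0 => z
  | i + 1 => T (w i) (vtx T z w i)

theorem vtx_wcons {Λ V : Type} (T : Λ → V → V) (z : V) (ℓ : Λ) (w : ℕ → Λ) (i : ℕ) :
    vtx T z (wcons ℓ w) (i + 1) = vtx T (T ℓ z) w i := by
  induction i with
  | zero => rfl
  | succ i ih => rw [vtx, ih]; rfl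

section avg

variable {Λ : Type} [Fintype Λ] [Inhabited Λ]

theorem card_pos' : (0 : ℝ) < Fintype.card Λ := by exact_mod_cast Fintype.card_pos

theorem avgW_mono : ∀ (t : ℕ) {G H : (ℕ → Λ) → ℝ}, (∀ w, G w ≤ H w) → avgW t G ≤ avgW t H
  | 0, _, _, h => h _
  | t + 1, _, _, h => div_le_div_of_nonneg_right
      (sum_le_sum fun _ _ => avgW_mono t fun _ => h _) card_pos'.le

theorem avgW_const : ∀ (t : ℕ) (c : ℝ), avgW t (fun _ : ℕ → Λ => c) = c
  | 0, _ => rfl
  | t + 1, c => by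
    simp only [avgW, avgW_const t c, sum_const, card_univ, nsmul_eq_mul]
    have := (card_pos' (Λ := Λ)).ne'
    field_simp

theorem avgW_add : ∀ (t : ℕ) (G H : (ℕ → Λ) → ℝ),
    avgW t (fun w => G w + H w) = avgW t G + avgW t H
  | 0, _, _ => rfl
  | t + 1, G, H => by
    simp only [avgW]
    rw [← add_div, ← sum_add_distrib]
    congr 1
    exact sum_congr rfl fun ℓ _ => avgW_add t _ _

theorem avgW_mul : ∀ (t : ℕ) (c : ℝ) (G : (ℕ → Λ) → ℝ),
    avgW t (fun w => c * G w) = c * avgW t G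
  | 0, _, _ => rfl
  | t + 1, c, G => by
    simp only [avgW]
    rw [← mul_div_assoc, mul_sum]
    congr 1
    exact sum_congr rfl fun ℓ _ => avgW_mul t _ _

theorem avgW_nonneg (t : ℕ) {G : (ℕ → Λ) → ℝ} (h : ∀ w, 0 ≤ G w) : 0 ≤ avgW t G := by
  have := avgW_mono t (G := fun _ => 0) h
  rwa [avgW_const] at this

end avg

variable {X : Type*} [NormedAddCommGroup X]

theorem markov_words {p K : ℝ} (hX : HasMarkovType X p K) {Λ S : Type} [Fintype Λ] [Inhabited Λ]
    [Fintype S] [Nonempty S] (ι : Λ → Λ) (hι : Function.Involutive ι) (τ : Λ → S → S)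
    (hτ : ∀ ℓ s, τ ℓ s = s ∨ τ (ι ℓ) (τ ℓ s) = s) (f : S → X) {t : ℕ} (ht : 1 ≤ t) :
    ∑ s, avgW t (fun w => ‖f (vtx τ s w t) - f s‖ ^ p) ≤
      K ^ p * t * ∑ s, (∑ ℓ, ‖f (τ ℓ s) - f s‖ ^ p) / Fintype.card Λ := by
  classical
  set P : Matrix S S ℝ := fun i j => (∑ ℓ, if τ ℓ i = j then 1 else 0) / Fintype.card Λ with hP
  have hc := card_pos' (Λ := Λ)
  have hS : (0 : ℝ) < Fintype.card S := by exact_mod_cast Fintype.card_pos
  have hone : ∀ (i : S) (H : S → ℝ), ∑ k, P i k * H k = (∑ ℓ, H (τ ℓ i)) / Fintype.card Λ := by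
    intro i H
    simp only [hP, div_mul_eq_mul_div, sum_mul]
    rw [← sum_div, sum_comm]
    congr 1
    refine sum_congr rfl fun ℓ _ => ?_
    simp
  have hpow : ∀ (t : ℕ) (i : S) (G : S → ℝ),
      ∑ j, (P ^ t) i j * G j = avgW t fun w => G (vtx τ i w t) := by
    intro t
    induction t with
    | zero => intro i G; simp [avgW, vtx, Matrix.one_apply]
    | succ t ih =>
      intro i G
      simp only [pow_succ', Matrix.mul_apply, sum_mul, avgW, vtx_wcons]
      rw [sum_comm]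
      simp only [mul_assoc, ← mul_sum, ih]
      exact hone i _
  have hsymm : ∀ i j, P i j = P j i := by
    intro i j
    by_cases hij : i = j
    · rw [hij]
    simp only [hP]
    congr 1
    rw [← Equiv.sum_comp hι.toPerm (fun ℓ => if τ ℓ j = i then (1 : ℝ) else 0)]
    refine sum_congr rfl fun ℓ _ => ?_
    simp only [Function.Involutive.coe_toPerm]
    refine if_congr ⟨fun h => ?_, fun h => ?_⟩ rfl rfl
    · rcases hτ ℓ i with h' | h'
      · exact absurd (h'.symm.trans h) hij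
      · rwa [h] at h'
    · rcases hτ (ι ℓ) j with h' | h'
      · exact absurd (h.symm.trans h') hij
      · rwa [h, hι] at h'
  have key := hX S (fun _ => 1 / Fintype.card S) P (fun _ => by positivity)
    (by simp [hS.ne']) (fun i j => by
      simp only [hP]
      exact div_nonneg (sum_nonneg fun ℓ _ => by split_ifs <;> norm_num) hc.le)
    (fun i => by
      have := hone i fun _ => 1
      simpa [hc.ne'] using this)
    (fun i j => by rw [hsymm]) f t ht
  simp only [mul_assoc, ← mul_sum] at key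
  simp only [hpow t _ (fun j => ‖f j - f _‖ ^ p), hone _ (fun j => ‖f j - f _‖ ^ p)] at key
  have h2 : (1 / (Fintype.card S : ℝ)) * ∑ s, avgW t (fun w => ‖f (vtx τ s w t) - f s‖ ^ p) ≤
      (1 / (Fintype.card S : ℝ)) *
        (K ^ p * t * ∑ s, (∑ ℓ, ‖f (τ ℓ s) - f s‖ ^ p) / Fintype.card Λ) := by
    refine key.trans (le_of_eq ?_)
    ring
  exact le_of_mul_le_mul_left h2 (by positivity)

variable [NormedSpace ℝ X]

theorem markov_cocycle {p K : ℝ} (hp : 0 < p) (hK : 0 < K) (hX : HasMarkovType X p K)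
    {Λ V : Type} [Fintype Λ]
    [Inhabited Λ] [Fintype V] [Nonempty V] (ι : Λ → Λ) (hι : Function.Involutive ι)
    (T : Λ → V → V) (hT : ∀ ℓ z, T (ι ℓ) (T ℓ z) = z) (F : V → Λ → X)
    (hF : ∀ z ℓ, F (T ℓ z) (ι ℓ) = -F z ℓ) {t : ℕ} (ht : 1 ≤ t) :
    ∑ z, avgW t (fun w => ‖∑ i ∈ range t, F (vtx T z w i) (w i)‖ ^ p) ≤
      2 * (K ^ p * t * ∑ z, (∑ ℓ, ‖F z ℓ‖ ^ p) / Fintype.card Λ) := by
  classical
  have hc := card_pos' (Λ := Λ)
  set N := Fintype.card (V × Λ) with hN
  set L : ℕ := 4 * t * (N + 1) with hL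
  have hLpos : 0 < L := by positivity
  have hLt : 2 * t ≤ L := by rw [hL]; nlinarith
  set box : Finset (V × Λ → ℤ) := Fintype.piFinset fun _ => Ico (0 : ℤ) L with hbox
  set inn : Finset (V × Λ → ℤ) := Fintype.piFinset fun _ => Ico (t : ℤ) (L - t) with hinn
  have hsub : inn ⊆ box := Fintype.piFinset_subset _ _ fun _ => Ico_subset_Ico (by omega) (by omega)
  have hcard : (box.card : ℝ) ≤ 2 * inn.card := by
    simp only [hbox, hinn, Fintype.card_piFinset, Int.card_Ico, prod_const, card_univ, ← hN]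
    have e1 : ((L : ℤ) - 0).toNat = L := by simp
    have e2 : (((L : ℤ) - t - t).toNat : ℝ) = L - 2 * t := by
      have : ((L : ℤ) - t - t).toNat = L - 2 * t := by omega
      rw [this, Nat.cast_sub hLt]; push_cast; ring
    rw [e1]
    push_cast
    rw [e2]
    have hL0 : (0 : ℝ) < L := by exact_mod_cast hLpos
    have e3 : (L : ℝ) - 2 * t = L * (1 + (-(2 * t / L))) := by field_simp; ring
    have e4 : (2 * t / L : ℝ) = 1 / (2 * (N + 1)) := by
      rw [hL]; push_cast
      have : (0 : ℝ) < t := by exact_mod_cast ht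
      field_simp; ring
    have e5 : (1 : ℝ) / (2 * (N + 1)) ≤ 1 := by
      rw [div_le_one (by positivity)]
      have : (0 : ℝ) ≤ N := Nat.cast_nonneg _
      linarith
    have e6 := one_add_mul_le_pow (a := -(2 * t / L : ℝ)) (by rw [e4]; linarith) N
    have e7 : (1 : ℝ) / 2 ≤ 1 + N * -(2 * t / L : ℝ) := by
      rw [e4]
      have : (N : ℝ) * (1 / (2 * (N + 1))) ≤ 1 / 2 := by
        rw [mul_one_div, div_le_div_iff₀ (by positivity) (by norm_num)]
        linarith
      linarith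
    rw [e3, mul_pow]
    have : (0 : ℝ) < (L : ℝ) ^ N := by positivity
    nlinarith
  set ν : V → Λ → (V × Λ → ℤ) := fun z ℓ => Pi.single (z, ℓ) 1 - Pi.single (T ℓ z, ι ℓ) 1 with hν
  have hνa : ∀ z ℓ, ν (T ℓ z) (ι ℓ) = -ν z ℓ := by
    intro z ℓ; simp only [hν, hT, hι ℓ, neg_sub]
  have hνb : ∀ z ℓ c, -1 ≤ ν z ℓ c ∧ ν z ℓ c ≤ 1 := by
    intro z ℓ c
    simp only [hν, Pi.sub_apply, Pi.single_apply]
    split_ifs <;> norm_num
  set Φ : (V × Λ → ℤ) → X := fun u => ∑ c, (u c : ℝ) • (1 / 2 : ℝ) • F c.1 c.2 with hΦ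
  have hΦa : ∀ u z ℓ, Φ (u + ν z ℓ) = Φ u + F z ℓ := by
    intro u z ℓ
    simp only [hΦ, hν, Pi.add_apply, Pi.sub_apply, Int.cast_add, Int.cast_sub, add_smul, sub_smul,
      sum_add_distrib, sum_sub_distrib, Pi.single_apply, Int.cast_ite, Int.cast_one, Int.cast_zero,
      ite_smul, one_smul, zero_smul, sum_ite_eq', mem_univ, if_true, hF]
    congr 1
    rw [smul_neg, sub_neg_eq_add, ← add_smul]; norm_num
  have h0box : (0 : V × Λ → ℤ) ∈ box := by
    simp only [hbox, Fintype.mem_piFinset, mem_Ico, Pi.zero_apply]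
    intro _; constructor <;> omega
  have : Nonempty box := ⟨⟨0, h0box⟩⟩
  set τ : Λ → V × box → V × box := fun ℓ s =>
    if h : s.2.1 + ν s.1 ℓ ∈ box then (T ℓ s.1, ⟨_, h⟩) else s with hτ
  have hτ' : ∀ ℓ s, τ ℓ s = s ∨ τ (ι ℓ) (τ ℓ s) = s := by
    rintro ℓ ⟨z, u, hu⟩
    by_cases h : u + ν z ℓ ∈ box
    · right
      have e : τ ℓ (z, ⟨u, hu⟩) = (T ℓ z, ⟨_, h⟩) := by simp only [hτ, dif_pos h]
      have e2 : u + ν z ℓ + ν (T ℓ z) (ι ℓ) = u := by rw [hνa]; abel
      rw [e]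
      simp only [hτ]
      rw [dif_pos (by rw [e2]; exact hu)]
      simp only [hT, e2]
    · left; simp only [hτ, dif_neg h]
  have key := markov_words hX ι hι τ hτ' (fun s => Φ s.2.1) ht
  have hint : ∀ (z : V) (u : box) (w : ℕ → Λ), u.1 ∈ inn → ∀ i ≤ t,
      (vtx τ (z, u) w i).1 = vtx T z w i ∧
      (∀ c, (t : ℤ) - i ≤ (vtx τ (z, u) w i).2.1 c ∧ (vtx τ (z, u) w i).2.1 c < L - (t - i)) ∧
      Φ (vtx τ (z, u) w i).2.1 = Φ u.1 + ∑ j ∈ range i, F (vtx T z w j) (w j) := by
    intro z u w hu i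
    induction i with
    | zero =>
      intro _
      refine ⟨rfl, fun c => ?_, by simp [vtx]⟩
      have := mem_Ico.1 (Fintype.mem_piFinset.1 hu c)
      simpa [vtx] using this
    | succ i ih =>
      intro hi
      obtain ⟨h1, h2, h3⟩ := ih (by omega)
      have hb : ∀ c, (t : ℤ) - (i + 1 : ℕ) ≤ ((vtx τ (z, u) w i).2.1 + ν (vtx τ (z, u) w i).1 (w i)) c
          ∧ ((vtx τ (z, u) w i).2.1 + ν (vtx τ (z, u) w i).1 (w i)) c < L - (t - (i + 1 : ℕ)) := by
        intro c
        have := h2 c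
        have := hνb (vtx τ (z, u) w i).1 (w i) c
        rw [Pi.add_apply]
        push_cast
        omega
      have hin : (vtx τ (z, u) w i).2.1 + ν (vtx τ (z, u) w i).1 (w i) ∈ box := by
        simp only [hbox, Fintype.mem_piFinset, mem_Ico]
        intro c
        have := hb c
        omega
      have e : vtx τ (z, u) w (i + 1) = (T (w i) (vtx τ (z, u) w i).1, ⟨_, hin⟩) := by
        rw [vtx]; simp only [hτ]; rw [dif_pos hin]
      rw [e]
      refine ⟨by rw [vtx, ← h1], hb, ?_⟩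
      simp only
      rw [hΦa, h3, sum_range_succ, h1, add_assoc]
  set A : V → ℝ := fun z => avgW t (fun w => ‖∑ i ∈ range t, F (vtx T z w i) (w i)‖ ^ p) with hA
  set R : ℝ := ∑ z, (∑ ℓ, ‖F z ℓ‖ ^ p) / Fintype.card Λ with hR
  have hL1 : inn.card * ∑ z, A z ≤
      ∑ s : V × box, avgW t (fun w => ‖Φ (vtx τ s w t).2.1 - Φ s.2.1‖ ^ p) := by
    rw [Fintype.sum_prod_type, mul_sum]
    refine sum_le_sum fun z _ => ?_
    have e : (inn.card : ℝ) * A z = ∑ u : box, if u.1 ∈ inn then A z else 0 := by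
      rw [sum_coe_sort box (fun u => if u ∈ inn then A z else 0), sum_ite_mem,
        inter_eq_right.2 hsub, sum_const, nsmul_eq_mul]
    rw [e]
    refine sum_le_sum fun u _ => ?_
    split_ifs with hu
    · refine avgW_mono t fun w => le_of_eq ?_
      rw [(hint z u w hu t le_rfl).2.2, add_sub_cancel_left]
    · exact avgW_nonneg t fun w => by positivity
  have hR1 : ∑ s : V × box, (∑ ℓ, ‖Φ (τ ℓ s).2.1 - Φ s.2.1‖ ^ p) / Fintype.card Λ ≤
      box.card * R := by
    rw [Fintype.sum_prod_type, hR, mul_sum]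
    refine sum_le_sum fun z _ => ?_
    calc _ ≤ ∑ _u : box, (∑ ℓ, ‖F z ℓ‖ ^ p) / Fintype.card Λ := by
          refine sum_le_sum fun u _ => div_le_div_of_nonneg_right (sum_le_sum fun ℓ _ => ?_) hc.le
          simp only [hτ]
          split_ifs with h
          · simp only [hΦa, add_sub_cancel_left, le_refl]
          · rw [sub_self, norm_zero, Real.zero_rpow hp.ne']; positivity
      _ = _ := by simp
  have hR0 : 0 ≤ R := sum_nonneg fun z _ => div_nonneg (sum_nonneg fun ℓ _ => by positivity) hc.le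
  have hKt : 0 ≤ K ^ p * t := by positivity
  have hbpos : (0 : ℝ) < box.card := by exact_mod_cast card_pos.2 ⟨0, h0box⟩
  have hipos : (0 : ℝ) < inn.card := by linarith
  have e1 : inn.card * ∑ z, A z ≤ inn.card * (2 * (K ^ p * t * R)) := by
    calc _ ≤ _ := hL1
      _ ≤ _ := key
      _ ≤ K ^ p * t * (box.card * R) := mul_le_mul_of_nonneg_left hR1 hKt
      _ ≤ K ^ p * t * (2 * inn.card * R) :=
        mul_le_mul_of_nonneg_left (mul_le_mul_of_nonneg_right hcard hR0) hKt
      _ = _ := by ring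
  exact le_of_mul_le_mul_left e1 hipos

end Crest.Agent.R140
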