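import Mathlib

/-!
Finite ordered models: finite actions of a free group with an almost consistent linear order
on the events `(z, φ)`, built as iterated skew products.
-/

set_option autoImplicit false

namespace Crest.Agent.R140

open Finset

/-- A finite model with `2 * D` letters, window `m` and bad fraction `δ`. -/
def Model (D m : ℕ) (δ : ℝ) : Prop :=
  ∃ (V : Type) (_ : Fintype V) (_ : Nonempty V) (T : ZMod (2 * D) → V → V) (pos : V → ℕ → ℕ)
    (M : ℕ) (B : Finset V),
    (∀ ℓ z, T (ℓ + D) (T ℓ z) = z) ∧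
    (∀ z φ, φ < m → pos z φ < M) ∧
    ((B.card : ℝ) ≤ δ * Fintype.card V) ∧
    (∀ z, z ∉ B → ∀ φ ψ, φ < ψ → ψ < m → pos z φ < pos z ψ) ∧
    (∀ z, z ∉ B → ∀ φ ψ, φ + 1 = ψ + D → φ < m → pos z φ < pos (T φ z) ψ)

theorem add_D_add_D (D : ℕ) (ℓ : ZMod (2 * D)) : ℓ + D + D = ℓ := by
  have : ((2 * D : ℕ) : ZMod (2 * D)) = 0 := ZMod.natCast_self _
  push_cast at this
  rw [add_assoc, ← two_mul, this, add_zero]

theorem add_D_ne {D : ℕ} (hD : 0 < D) (ℓ : ZMod (2 * D)) : ℓ + D ≠ ℓ := by
  intro h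
  have : ((D : ℕ) : ZMod (2 * D)) = 0 := by simpa using h
  rw [ZMod.natCast_eq_zero_iff] at this
  have := Nat.le_of_dvd hD this
  omega

theorem val_add_intCast {L : ℕ} [NeZero L] (c : ZMod L) (a : ℤ) (h0 : 0 ≤ (c.val : ℤ) + a)
    (h1 : (c.val : ℤ) + a < L) : ((c + (a : ZMod L)).val : ℤ) = c.val + a := by
  have : c + (a : ZMod L) = (((c.val : ℤ) + a : ℤ) : ZMod L) := by
    push_cast; rw [ZMod.natCast_zmod_val]
  rw [this, ZMod.val_intCast, Int.emod_eq_of_lt h0 h1]

theorem model_step {D m : ℕ} (hD : 2 ≤ D) {δ : ℝ} (hδ : 0 < δ) (h : Model D m (δ / 2)) :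
    Model D (m + 1) δ := by
  classical
  obtain ⟨V, _, _, T, pos, M, B, hT, hM, hB, hW, hTu⟩ := h
  set pe : V → ℕ → ℕ := fun z φ => if φ < m then pos z φ else M with hpe
  have hpeM : ∀ z φ, pe z φ ≤ M := by
    intro z φ
    simp only [hpe]
    split_ifs with h
    · exact (hM z φ h).le
    · exact le_rfl
  have hpeW : ∀ z, z ∉ B → ∀ φ ψ, φ < ψ → ψ < m + 1 → pe z φ < pe z ψ := by
    intro z hz φ ψ h1 h2
    simp only [hpe]
    rw [if_pos (by omega)]
    split_ifs with h
    · exact hW z hz φ ψ h1 h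
    · exact hM z φ (by omega)
  set w : V → ℕ → ℕ := fun z φ => 4 ^ (M - pe z φ) with hw
  have hw1 : ∀ z φ, 1 ≤ w z φ := fun z φ => Nat.one_le_pow _ _ (by norm_num)
  have hwM : ∀ z φ, w z φ ≤ 4 ^ M := fun z φ => Nat.pow_le_pow_right (by norm_num) (by omega)
  have hw4 : ∀ z φ z' ψ, pe z φ < pe z' ψ → 4 * w z' ψ ≤ w z φ := by
    intro z φ z' ψ h
    have := hpeM z' ψ
    simp only [hw]
    rw [← pow_succ']
    exact Nat.pow_le_pow_right (by norm_num) (by omega)
  set μ := m + 1 - D with hμ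
  set ω : V → ZMod (2 * D) → ℤ := fun z ℓ =>
    if ℓ = m then 2 * (w (T ℓ z) μ : ℤ) else if ℓ = m + D then -2 * (w z μ : ℤ) else 0 with hω
  set W : ℕ := 2 * 4 ^ M with hWdef
  have hωW : ∀ z ℓ, -(W : ℤ) ≤ ω z ℓ ∧ ω z ℓ ≤ W := by
    intro z ℓ
    have e1 := hwM (T ℓ z) μ
    have e2 := hwM z μ
    simp only [hω]
    split_ifs <;> constructor <;> omega
  have hωa : ∀ z ℓ, ω (T ℓ z) (ℓ + D) = -ω z ℓ := by
    intro z ℓ
    have hne := add_D_ne (D := D) (by omega) (m : ZMod (2 * D))
    simp only [hω]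
    by_cases h1 : ℓ = m
    · subst h1
      rw [if_neg hne, if_pos rfl, if_pos rfl]; ring
    · by_cases h2 : ℓ = m + D
      · rw [if_pos (by rw [h2, add_D_add_D]), if_neg h1, if_pos h2, hT]; ring
      · rw [if_neg, if_neg, if_neg h1, if_neg h2, neg_zero]
        · intro h; exact h1 (add_right_cancel h)
        · intro h; apply h2; rw [← h, add_D_add_D]
  obtain ⟨K, hK⟩ := exists_nat_gt (2 / δ)
  have hKpos : 0 < K := by
    have : (0 : ℝ) < 2 / δ := by positivity
    exact_mod_cast this.trans hK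
  set L : ℕ := 2 * W * K with hL
  have hWpos : 0 < W := by positivity
  have hLpos : 0 < L := by positivity
  have : NeZero L := ⟨hLpos.ne'⟩
  set C : Finset (ZMod L) := univ.filter fun c => c.val < W ∨ L ≤ c.val + W with hC
  have hCcard : C.card ≤ 2 * W := by
    have : C.card ≤ (range W ∪ Ico (L - W) L).card := by
      refine card_le_card_of_injOn (fun c => c.val) ?_ (fun a _ b _ h => ZMod.val_injective _ h)
      intro c hc
      have hc := (mem_filter.1 hc).2
      have := ZMod.val_lt c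
      simp only [coe_union, coe_range, coe_Ico, Set.mem_union, Set.mem_Iio, Set.mem_Ico]
      omega
    refine this.trans ((card_union_le _ _).trans ?_)
    simp only [card_range, Nat.card_Ico]
    omega
  refine ⟨V × ZMod L, inferInstance, inferInstance,
    fun ℓ s => (T ℓ s.1, s.2 + (ω s.1 ℓ : ZMod L)),
    fun s φ => s.2.val + 4 ^ M - w s.1 φ, L + 4 ^ M, (B ×ˢ univ) ∪ (univ ×ˢ C), ?_, ?_, ?_, ?_, ?_⟩
  · rintro ℓ ⟨z, c⟩
    simp only [hT, hωa]
    push_cast
    simp
  · rintro ⟨z, c⟩ φ _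
    have := ZMod.val_lt c
    have := hw1 z φ
    simp only
    omega
  · have e1 := card_union_le (B ×ˢ (univ : Finset (ZMod L))) ((univ : Finset V) ×ˢ C)
    rw [card_product, card_product, card_univ, card_univ, ZMod.card] at e1
    have e2 : ((B ×ˢ (univ : Finset (ZMod L)) ∪ (univ : Finset V) ×ˢ C).card : ℝ) ≤
        B.card * L + Fintype.card V * C.card := by exact_mod_cast e1
    have e3 : (C.card : ℝ) ≤ 2 * W := by exact_mod_cast hCcard
    have e4 : (2 * W : ℝ) ≤ δ / 2 * L := by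
      rw [hL]; push_cast
      rw [div_lt_iff₀ hδ] at hK
      have : (0 : ℝ) ≤ W := Nat.cast_nonneg _
      nlinarith
    rw [Fintype.card_prod, ZMod.card]
    push_cast
    have hL0 : (0 : ℝ) ≤ L := Nat.cast_nonneg _
    have hV0 : (0 : ℝ) ≤ Fintype.card V := Nat.cast_nonneg _
    nlinarith [mul_le_mul_of_nonneg_right hB hL0, mul_le_mul_of_nonneg_left (e3.trans e4) hV0]
  · rintro ⟨z, c⟩ hs φ ψ h1 h2
    have hz : z ∉ B := fun h => hs (mem_union_left _ (mem_product.2 ⟨h, mem_univ _⟩))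
    have e1 := hw4 z φ z ψ (hpeW z hz φ ψ h1 h2)
    have e2 := hw1 z ψ
    have e3 := hwM z φ
    simp only
    omega
  · rintro ⟨z, c⟩ hs φ ψ h1 h2
    have hz : z ∉ B := fun h => hs (mem_union_left _ (mem_product.2 ⟨h, mem_univ _⟩))
    have hc : ¬ (c.val < W ∨ L ≤ c.val + W) := fun h =>
      hs (mem_union_right _ (mem_product.2 ⟨mem_univ _, mem_filter.2 ⟨mem_univ _, h⟩⟩))
    have e0 := hωW z φ
    have e1 := val_add_intCast c (ω z φ) (by omega) (by omega)
    have e2 := hwM z φ
    have e3 := hwM (T φ z) ψ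
    have e4 := hw1 z φ
    have e5 := hw1 (T φ z) ψ
    have key : (w (T φ z) ψ : ℤ) - ω z φ < w z φ := by
      rcases (Nat.lt_succ_iff.1 h2).lt_or_eq with h | h
      · have e6 : pe z φ < pe (T φ z) ψ := by
          simp only [hpe]
          rw [if_pos h, if_pos (by omega)]
          exact hTu z hz φ ψ h1 h
        have e7 := hw4 _ _ _ _ e6
        simp only [hω]
        split_ifs with h3 h4
        · omega
        · have h5 : φ + D ≤ m := by
            have : ((φ : ℕ) : ZMod (2 * D)) = ((m + D : ℕ) : ZMod (2 * D)) := by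
              push_cast; exact h4
            rw [ZMod.natCast_eq_natCast_iff, Nat.modEq_iff_dvd' (by omega)] at this
            have := Nat.le_of_dvd (by omega) this
            omega
          have e8 := hw4 _ _ _ _ (hpeW z hz φ μ (by omega) (by omega))
          omega
        · omega
      · have hψ : ψ = μ := by omega
        simp only [hω]
        rw [if_pos (by rw [h]), ← hψ]
        omega
    simp only
    omega

theorem model_exists {D : ℕ} (hD : 2 ≤ D) (m : ℕ) : ∀ δ : ℝ, 0 < δ → Model D m δ := by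
  induction m with
  | zero =>
    intro δ hδ
    refine ⟨Unit, inferInstance, inferInstance, fun _ z => z, fun _ _ => 0, 0, ∅, fun _ _ => rfl,
      by simp, ?_, by simp, by simp⟩
    simpa using hδ.le
  | succ m ih => exact fun δ hδ => model_step hD hδ (ih _ (by linarith))

end Crest.Agent.R140
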