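import Mathlib
import Crest.Agent.R140.Model
import Crest.Agent.R140.Cocycle

/-!
Nested pulses along non-backtracking words, and the counting estimates.
-/

set_option autoImplicit false

namespace Crest.Agent.R140

open Finset

theorem cast_mul_D_even {D j : ℕ} (hj : Even j) : ((j : ℕ) : ZMod (2 * D)) * D = 0 := by
  obtain ⟨k, rfl⟩ := hj
  have : ((2 * D : ℕ) : ZMod (2 * D)) = 0 := ZMod.natCast_self _
  push_cast at this ⊢
  linear_combination (k : ZMod (2 * D)) * this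

theorem cast_mul_D_odd {D j : ℕ} (hj : ¬ Even j) : ((j : ℕ) : ZMod (2 * D)) * D = D := by
  obtain ⟨k, rfl⟩ := Nat.not_even_iff_odd.1 hj
  have : ((2 * D : ℕ) : ZMod (2 * D)) = 0 := ZMod.natCast_self _
  push_cast at this ⊢
  linear_combination (k : ZMod (2 * D)) * this

section

variable {D m : ℕ} {V : Type} {T : ZMod (2 * D) → V → V} {pos : V → ℕ → ℕ} {B : Finset V}

theorem turn_lt
    (hW : ∀ z, z ∉ B → ∀ φ ψ, φ < ψ → ψ < m → pos z φ < pos z ψ)
    (hTu : ∀ z, z ∉ B → ∀ φ ψ, φ + 1 = ψ + D → φ < m → pos z φ < pos (T φ z) ψ)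
    {v v' : V} (hv : v ∉ B) (hv' : v' ∉ B) {φ ψ : ℕ} (hφ : T φ v = v') (h1 : D ≤ φ) (h2 : φ < m)
    (h3 : φ + 1 ≤ ψ + D) (h4 : ψ < m) : pos v φ < pos v' ψ := by
  have e := hTu v hv φ (φ + 1 - D) (by omega) h2
  rw [hφ] at e
  rcases (show φ + 1 - D ≤ ψ by omega).lt_or_eq with h | h
  · exact e.trans (hW v' hv' _ _ h h4)
  · rwa [h] at e

theorem edge_lt (hT : ∀ ℓ z, T (ℓ + D) (T ℓ z) = z)
    (hW : ∀ z, z ∉ B → ∀ φ ψ, φ < ψ → ψ < m → pos z φ < pos z ψ)
    (hTu : ∀ z, z ∉ B → ∀ φ ψ, φ + 1 = ψ + D → φ < m → pos z φ < pos (T φ z) ψ)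
    {z : V} {ℓ : ZMod (2 * D)} (hz : z ∉ B) (hz' : T ℓ z ∉ B) {j φ : ℕ} (hD : 0 < D)
    (hφ : (φ : ZMod (2 * D)) = ℓ + j * D) (h1 : D ≤ φ) (h2 : φ + D < m) :
    pos (if Even j then z else T ℓ z) φ < pos (if Even (j + 1) then z else T ℓ z) (φ + D) := by
  by_cases hj : Even j
  · rw [if_pos hj, if_neg (by simpa [Nat.even_add_one] using hj)]
    rw [cast_mul_D_even hj, add_zero] at hφ
    exact turn_lt hW hTu hz hz' (by rw [hφ]) h1 (by omega) (by omega) h2
  · rw [if_neg hj, if_pos (by simpa [Nat.even_add_one] using hj)]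
    rw [cast_mul_D_odd hj] at hφ
    exact turn_lt hW hTu hz' hz (by rw [hφ, hT]) h1 (by omega) (by omega) h2

theorem align (hD : 0 < D) (hT : ∀ ℓ z, T (ℓ + D) (T ℓ z) = z)
    (hW : ∀ z, z ∉ B → ∀ φ ψ, φ < ψ → ψ < m → pos z φ < pos z ψ)
    (hTu : ∀ z, z ∉ B → ∀ φ ψ, φ + 1 = ψ + D → φ < m → pos z φ < pos (T φ z) ψ)
    {t J : ℕ} (z : ℕ → V) (w : ℕ → ZMod (2 * D)) (a : ℕ → ℕ → ℕ)
    (hz : ∀ i, z (i + 1) = T (w i) (z i)) (hB : ∀ i ≤ t, z i ∉ B)
    (ha1 : ∀ i < t, ∀ j < J, D ≤ a i j ∧ a i j < m)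
    (ha2 : ∀ i < t, ∀ j < J, (a i j : ZMod (2 * D)) = w i + j * D)
    (ha3 : ∀ i < t, ∀ j, a i (j + 1) = a i j + D)
    (ha4 : ∀ i, i + 1 < t → ∀ j < J, a (i + 1) j + 1 ≤ a i j + D ∧ a i j + 1 ≤ a (i + 1) j + D) :
    (∀ i < t, ∀ i' < t, ∀ j, j + 1 < J → pos (if Even j then z i else z (i + 1)) (a i j) <
      pos (if Even (j + 1) then z i' else z (i' + 1)) (a i' (j + 1))) ∧
    (∀ i < t, ∀ i' < t, ∀ j < J, i ≠ i' → pos (if Even j then z i else z (i + 1)) (a i j) ≠
      pos (if Even j then z i' else z (i' + 1)) (a i' j)) := by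
  set E : ℕ → ℕ → ℕ := fun i j => pos (if Even j then z i else z (i + 1)) (a i j) with hE
  have hev : ∀ j < J, Even j → ∀ i i', i < i' → i' < t → E i j < E i' j := by
    intro j hj he i i' h
    induction h with
    | refl =>
      intro h'
      simp only [hE, if_pos he]
      have e := ha2 i (by omega) j hj
      rw [cast_mul_D_even he, add_zero] at e
      exact turn_lt hW hTu (hB i (by omega)) (hB _ (by omega)) (by rw [e, hz])
        (ha1 i (by omega) j hj).1 (ha1 i (by omega) j hj).2 (ha4 i h' j hj).2 (ha1 _ h' j hj).2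
    | @step i' _ ih =>
      intro h'
      refine (ih (by omega)).trans ?_
      simp only [hE, if_pos he]
      have e := ha2 i' (by omega) j hj
      rw [cast_mul_D_even he, add_zero] at e
      exact turn_lt hW hTu (hB i' (by omega)) (hB _ (by omega)) (by rw [e, hz])
        (ha1 i' (by omega) j hj).1 (ha1 i' (by omega) j hj).2 (ha4 i' h' j hj).2 (ha1 _ h' j hj).2
  have hodd : ∀ j < J, ¬ Even j → ∀ i i', i < i' → i' < t → E i' j < E i j := by
    intro j hj he
    have step : ∀ i, i + 1 < t → E (i + 1) j < E i j := by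
      intro i h'
      simp only [hE, if_neg he]
      have e := ha2 (i + 1) h' j hj
      rw [cast_mul_D_odd he] at e
      exact turn_lt hW hTu (hB _ (by omega)) (hB _ (by omega)) (by rw [e, hz (i + 1), hT])
        (ha1 _ h' j hj).1 (ha1 _ h' j hj).2 (ha4 i h' j hj).1 (ha1 i (by omega) j hj).2
    intro i i' h
    induction h with
    | refl => exact step i
    | step _ ih => exact fun h' => (step _ h').trans (ih (by omega))
  have hev' : ∀ j < J, Even j → ∀ i i', i ≤ i' → i' < t → E i j ≤ E i' j := by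
    intro j hj he i i' h h'
    rcases h.lt_or_eq with h | rfl
    · exact (hev j hj he i i' h h').le
    · exact le_rfl
  have hodd' : ∀ j < J, ¬ Even j → ∀ i i', i ≤ i' → i' < t → E i' j ≤ E i j := by
    intro j hj he i i' h h'
    rcases h.lt_or_eq with h | rfl
    · exact (hodd j hj he i i' h h').le
    · exact le_rfl
  have hedge : ∀ i < t, ∀ j, j + 1 < J → E i j < E i (j + 1) := by
    intro i hi j hj
    simp only [hE]
    rw [ha3 i hi, hz i]
    exact edge_lt hT hW hTu (hB i hi.le) (hz i ▸ hB (i + 1) hi) hD (ha2 i hi j (by omega))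
      (ha1 i hi j (by omega)).1 (ha3 i hi j ▸ (ha1 i hi (j + 1) hj).2)
  refine ⟨fun i hi i' hi' j hj => ?_, fun i hi i' hi' j hj hne => ?_⟩
  · change E i j < E i' (j + 1)
    by_cases he : Even j
    · have he' : ¬ Even (j + 1) := by simpa [Nat.even_add_one] using he
      calc E i j ≤ E (t - 1) j := hev' j (by omega) he _ _ (by omega) (by omega)
        _ < E (t - 1) (j + 1) := hedge _ (by omega) j hj
        _ ≤ E i' (j + 1) := hodd' _ hj he' _ _ (by omega) (by omega)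
    · have he' : Even (j + 1) := by simpa [Nat.even_add_one] using he
      calc E i j ≤ E 0 j := hodd' j (by omega) he _ _ (by omega) hi
        _ < E 0 (j + 1) := hedge _ (by omega) j hj
        _ ≤ E i' (j + 1) := hev' _ hj he' _ _ (by omega) hi'
  · change E i j ≠ E i' j
    by_cases he : Even j
    · rcases lt_or_gt_of_ne hne with h | h
      · exact (hev j hj he _ _ h hi').ne
      · exact (hev j hj he _ _ h hi).ne'
    · rcases lt_or_gt_of_ne hne with h | h
      · exact (hodd j hj he _ _ h hi').ne'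
      · exact (hodd j hj he _ _ h hi).ne

end

theorem exists_rho {D : ℕ} (hD : 0 < D) : ∃ ρ β : ZMod (2 * D) → ℕ,
    (∀ ℓ, D ≤ ρ ℓ ∧ ρ ℓ < 2 * D) ∧ (∀ ℓ, (ρ ℓ : ZMod (2 * D)) = ℓ + β ℓ * D) ∧
    (∀ ℓ, ρ (ℓ + D) = ρ ℓ) ∧ (∀ ℓ, β (ℓ + D) + β ℓ = 1) := by
  have : NeZero (2 * D) := ⟨by omega⟩
  have hv : ∀ ℓ : ZMod (2 * D), (ℓ + D).val = if ℓ.val < D then ℓ.val + D else ℓ.val - D := by
    intro ℓ
    have h := ZMod.val_lt ℓ
    rw [ZMod.val_add, ZMod.val_natCast, Nat.mod_eq_of_lt (show D < 2 * D by omega)]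
    split_ifs with h1
    · exact Nat.mod_eq_of_lt (by omega)
    · rw [Nat.mod_eq_sub_mod (by omega), Nat.mod_eq_of_lt (by omega)]; omega
  refine ⟨fun ℓ => if ℓ.val < D then ℓ.val + D else ℓ.val, fun ℓ => if ℓ.val < D then 1 else 0,
    fun ℓ => ?_, fun ℓ => ?_, fun ℓ => ?_, fun ℓ => ?_⟩
  · have h := ZMod.val_lt ℓ
    simp only
    split_ifs <;> omega
  · simp only
    split_ifs <;> simp
  · have h := ZMod.val_lt ℓ
    simp only [hv]
    split_ifs <;> omega
  · have h := ZMod.val_lt ℓ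
    simp only [hv]
    split_ifs <;> omega

theorem exists_j0 {D : ℕ} (hD : 0 < D) {ρ β : ZMod (2 * D) → ℕ}
    (h1 : ∀ ℓ, D ≤ ρ ℓ ∧ ρ ℓ < 2 * D) (h2 : ∀ ℓ, (ρ ℓ : ZMod (2 * D)) = ℓ + β ℓ * D)
    (h4 : ∀ ℓ, β (ℓ + D) + β ℓ = 1) (t : ℕ) (w : ℕ → ZMod (2 * D))
    (hw : ∀ i, i + 1 < t → w (i + 1) ≠ w i + D) :
    ∃ j0 : ℕ → ℕ, (∀ i < t, j0 i ≤ 4 * t ∧ j0 i % 2 = β (w i)) ∧
      ∀ i, i + 1 < t → ∀ s s', s + j0 i = s' + j0 (i + 1) →
        ρ (w (i + 1)) + s' * D + 1 ≤ ρ (w i) + s * D + D ∧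
        ρ (w i) + s * D + 1 ≤ ρ (w (i + 1)) + s' * D + D := by
  have hβ : ∀ ℓ, β ℓ ≤ 1 := fun ℓ => by have := h4 ℓ; omega
  let j0 : ℕ → ℕ := fun i => Nat.rec (2 * t + β (w 0))
    (fun i j => if β (w (i + 1)) = β (w i) then j else
      if ρ (w i) < ρ (w (i + 1)) then j + 1 else j - 1) i
  have e0 : j0 0 = 2 * t + β (w 0) := rfl
  have es : ∀ i, j0 (i + 1) = if β (w (i + 1)) = β (w i) then j0 i else
      if ρ (w i) < ρ (w (i + 1)) then j0 i + 1 else j0 i - 1 := fun i => rfl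
  have inv : ∀ i < t, 2 * t ≤ j0 i + i ∧ j0 i ≤ 2 * t + 1 + i ∧ j0 i % 2 = β (w i) := by
    intro i
    induction i with
    | zero => intro _; have := hβ (w 0); omega
    | succ i ih =>
      intro hi
      have := ih (by omega)
      have := hβ (w i)
      have := hβ (w (i + 1))
      rw [es]
      split_ifs <;> omega
  refine ⟨j0, fun i hi => by have := inv i hi; omega, fun i hi s s' hs => ?_⟩
  have a1 := h1 (w i)
  have a2 := h1 (w (i + 1))
  have a3 := inv i (by omega)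
  rw [es] at hs
  split_ifs at hs with c1 c2
  · obtain rfl : s = s' := by omega
    omega
  · obtain rfl : s = s' + 1 := by omega
    rw [add_mul]; omega
  · obtain rfl : s' = s + 1 := by omega
    have : ρ (w i) ≠ ρ (w (i + 1)) := by
      intro h
      apply hw i hi
      have b1 := h2 (w i)
      have b2 := h2 (w (i + 1))
      rw [h, b2] at b1
      have b3 := hβ (w i)
      have b4 := hβ (w (i + 1))
      rcases (show (β (w i) = 0 ∧ β (w (i + 1)) = 1) ∨ (β (w i) = 1 ∧ β (w (i + 1)) = 0) by omega)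
        with ⟨c, d⟩ | ⟨c, d⟩
      · rw [c, d] at b1
        simp only [Nat.cast_one, one_mul, Nat.cast_zero, zero_mul, add_zero] at b1
        rw [← b1, add_D_add_D]
      · rw [c, d] at b1
        simpa using b1
    rw [add_mul]; omega

section counting

variable {Λ : Type} [Fintype Λ] [Inhabited Λ]

theorem avgW_sum {ι : Type*} (t : ℕ) (s : Finset ι) (G : ι → (ℕ → Λ) → ℝ) :
    avgW t (fun w => ∑ i ∈ s, G i w) = ∑ i ∈ s, avgW t (G i) := by
  classical
  induction s using Finset.induction_on with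
  | empty => simp [avgW_const]
  | insert a s ha ih =>
    simp only [sum_insert ha]
    rw [avgW_add, ih]

theorem avgW_back [DecidableEq Λ] (ι : Λ → Λ) : ∀ (i t : ℕ), i + 1 < t →
    avgW t (fun w : ℕ → Λ => if w (i + 1) = ι (w i) then (1 : ℝ) else 0) = 1 / Fintype.card Λ := by
  have hc := (card_pos' (Λ := Λ)).ne'
  intro i
  induction i with
  | zero =>
    intro t ht
    obtain ⟨t, rfl⟩ : ∃ s, t = s + 2 := ⟨t - 2, by omega⟩
    change (∑ x : Λ, (∑ ℓ : Λ, avgW t fun _ : ℕ → Λ => if ℓ = ι x then (1 : ℝ) else 0) /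
      Fintype.card Λ) / Fintype.card Λ = _
    simp only [avgW_const, sum_ite_eq', mem_univ, if_true, sum_const, card_univ,
      nsmul_eq_mul]
    field_simp
  | succ i ih =>
    intro t ht
    obtain ⟨t, rfl⟩ : ∃ s, t = s + 1 := ⟨t - 1, by omega⟩
    change (∑ _x : Λ, avgW t fun w : ℕ → Λ => if w (i + 1) = ι (w i) then (1 : ℝ) else 0) /
      Fintype.card Λ = _
    simp only [ih t (by omega), sum_const, card_univ, nsmul_eq_mul]
    field_simp

omit [Fintype Λ] [Inhabited Λ] in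
theorem vtx_injective {V : Type} (T : Λ → V → V) (hT : ∀ ℓ, Function.Injective (T ℓ))
    (w : ℕ → Λ) (i : ℕ) : Function.Injective fun z => vtx T z w i := by
  induction i with
  | zero => exact fun _ _ h => h
  | succ i ih => exact fun _ _ h => ih (hT _ h)

theorem sum_ind_mem {V : Type} [Fintype V] [DecidableEq V] (B : Finset V) {e : V → V}
    (he : Function.Injective e) : ∑ z, (if e z ∈ B then (1 : ℝ) else 0) = B.card := by
  have hb : Function.Bijective e := Finite.injective_iff_bijective.1 he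
  rw [hb.sum_comp (fun z => if z ∈ B then (1 : ℝ) else 0)]
  simp

end counting

end Crest.Agent.R140
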