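import Mathlib

/-!
James systems and the Bellman value of finite splitting trees in the unit ball.
-/

set_option autoImplicit false

namespace Crest.Agent.R140

open Finset

variable {X : Type*} [NormedAddCommGroup X] [NormedSpace ℝ X]

/-- A James system with gap `θ` indexed by the finite set `H`. -/
def JSys (θ : ℝ) (H : Finset ℕ) (x : ℕ → X) (f : ℕ → X →L[ℝ] ℝ) (α : ℕ → ℝ) : Prop :=
  (∀ j ∈ H, ‖x j‖ ≤ 1) ∧ (∀ i ∈ H, ‖f i‖ ≤ 1) ∧
    (∀ i ∈ H, ∀ j ∈ H, j ≤ i → f i (x j) ≤ α i) ∧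
    (∀ i ∈ H, ∀ j ∈ H, i < j → α i + θ ≤ f i (x j))

theorem JSys.mono {θ : ℝ} {H H' : Finset ℕ} {x : ℕ → X} {f : ℕ → X →L[ℝ] ℝ} {α : ℕ → ℝ}
    (h : JSys θ H x f α) (hH : H' ⊆ H) : JSys θ H' x f α :=
  ⟨fun j hj => h.1 j (hH hj), fun i hi => h.2.1 i (hH hi),
    fun i hi j hj => h.2.2.1 i (hH hi) j (hH hj), fun i hi j hj => h.2.2.2 i (hH hi) j (hH hj)⟩

open Classical in
/-- Reward of a split. -/
noncomputable def rew (ε a : ℝ) (y z : X) : ℝ := if ε ≤ ‖y - z‖ then a * (1 - a) else 0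

omit [NormedSpace ℝ X] in
theorem rew_nonneg {ε a : ℝ} (y z : X) (h0 : 0 ≤ a) (h1 : a ≤ 1) : 0 ≤ rew ε a y z := by
  unfold rew; split_ifs
  · exact mul_nonneg h0 (by linarith)
  · exact le_rfl

omit [NormedSpace ℝ X] in
theorem rew_le {ε a : ℝ} (y z : X) (h0 : 0 ≤ a) (h1 : a ≤ 1) : rew ε a y z ≤ a * (1 - a) := by
  unfold rew; split_ifs
  · exact le_rfl
  · exact mul_nonneg h0 (by linarith)

/-- `Ach R ε n x v`: the value `v` is achieved from `x` by a splitting tree of depth at most `n`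
which only splits points of `R`. -/
def Ach (R : Set X) (ε : ℝ) : ℕ → X → ℝ → Prop
  | 0, _, v => v ≤ 0
  | n + 1, x, v => v ≤ 0 ∨ ∃ (a : ℝ) (y z : X) (v₁ v₂ : ℝ), 0 ≤ a ∧ a ≤ 1 ∧ ‖y‖ ≤ 1 ∧ ‖z‖ ≤ 1 ∧
      x ∈ R ∧ x = a • y + (1 - a) • z ∧ Ach R ε n y v₁ ∧ Ach R ε n z v₂ ∧
      v ≤ a * v₁ + (1 - a) * v₂ + rew ε a y z

theorem Ach.zero (R : Set X) (ε : ℝ) (n : ℕ) (x : X) : Ach R ε n x 0 := by
  cases n with
  | zero => exact le_rfl
  | succ n => exact Or.inl le_rfl

theorem Ach.le_depth {R : Set X} {ε : ℝ} : ∀ {n : ℕ} {x : X} {v : ℝ}, Ach R ε n x v → v ≤ n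
  | 0, _, v, h => by
    have h' : v ≤ 0 := h
    simpa using h'
  | n + 1, _, _, h => by
    rcases h with h | ⟨a, y, z, v₁, v₂, h0, h1, -, -, -, -, hy, hz, hv⟩
    · have : (0 : ℝ) ≤ ((n + 1 : ℕ) : ℝ) := Nat.cast_nonneg _
      linarith
    · have e1 := hy.le_depth
      have e2 := hz.le_depth
      have e3 := rew_le (ε := ε) y z h0 h1
      push_cast
      nlinarith [mul_le_mul_of_nonneg_left e1 h0, mul_le_mul_of_nonneg_left e2 (sub_nonneg.2 h1),
        sq_nonneg a]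

theorem Ach.succ {R : Set X} {ε : ℝ} : ∀ {n : ℕ} {x : X} {v : ℝ}, Ach R ε n x v →
    Ach R ε (n + 1) x v
  | 0, _, _, h => Or.inl h
  | n + 1, _, _, h => by
    rcases h with h | ⟨a, y, z, v₁, v₂, h0, h1, hy1, hz1, hR, hx, hy, hz, hv⟩
    · exact Or.inl h
    · exact Or.inr ⟨a, y, z, v₁, v₂, h0, h1, hy1, hz1, hR, hx, hy.succ, hz.succ, hv⟩

theorem Ach.mono {R : Set X} {ε : ℝ} {n m : ℕ} {x : X} {v : ℝ} (h : Ach R ε n x v)
    (hnm : n ≤ m) : Ach R ε m x v := by
  induction hnm with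
  | refl => exact h
  | step _ ih => exact ih.succ

theorem Ach.nonpos_of_notMem {R : Set X} {ε : ℝ} {n : ℕ} {x : X} {v : ℝ} (h : Ach R ε n x v)
    (hx : x ∉ R) : v ≤ 0 := by
  cases n with
  | zero => exact h
  | succ n =>
    rcases h with h | ⟨a, y, z, v₁, v₂, -, -, -, -, hR, -⟩
    · exact h
    · exact absurd hR hx

theorem apply_le_one {g : X →L[ℝ] ℝ} (hg : ‖g‖ ≤ 1) {z : X} (hz : ‖z‖ ≤ 1) : |g z| ≤ 1 := by
  have := g.le_opNorm z
  rw [Real.norm_eq_abs] at this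
  nlinarith [norm_nonneg g, norm_nonneg z]

/-- Cutting the region by a half-space. -/
theorem Ach.cut {R : Set X} {ε : ℝ} {g : X →L[ℝ] ℝ} (hg : ‖g‖ ≤ 1) {β W : ℝ} (hβ : β < 1)
    (hW0 : 0 ≤ W) {N : ℕ} (hW : ∀ x v, ‖x‖ ≤ 1 → Ach R ε N x v → v ≤ W) :
    ∀ n ≤ N, ∀ (z : X) (v : ℝ), ‖z‖ ≤ 1 → Ach R ε n z v →
      ∃ v', Ach (R ∩ {x | β ≤ g x}) ε n z v' ∧ v ≤ v' + W * ((1 - g z) / (1 - β)) := by
  have hβ' : 0 < 1 - β := by linarith
  intro n
  induction n with
  | zero =>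
    intro _ z v hz h
    refine ⟨0, Ach.zero _ _ _ _, ?_⟩
    have h1 := (abs_le.1 (apply_le_one hg hz)).2
    have : 0 ≤ W * ((1 - g z) / (1 - β)) := mul_nonneg hW0 (div_nonneg (by linarith) hβ'.le)
    have h' : v ≤ 0 := h
    linarith
  | succ n ih =>
    intro hn x v hx h
    have h1 := (abs_le.1 (apply_le_one hg hx)).2
    have hpos : 0 ≤ W * ((1 - g x) / (1 - β)) := mul_nonneg hW0 (div_nonneg (by linarith) hβ'.le)
    by_cases hgx : β ≤ g x
    · rcases h with h | ⟨a, y, z, v₁, v₂, h0, h1, hy1, hz1, hR, hxe, hy, hz, hv⟩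
      · exact ⟨0, Ach.zero _ _ _ _, by linarith⟩
      · obtain ⟨w₁, hw₁, e₁⟩ := ih (by omega) y v₁ hy1 hy
        obtain ⟨w₂, hw₂, e₂⟩ := ih (by omega) z v₂ hz1 hz
        refine ⟨a * w₁ + (1 - a) * w₂ + rew ε a y z,
          Or.inr ⟨a, y, z, w₁, w₂, h0, h1, hy1, hz1, ⟨hR, hgx⟩, hxe, hw₁, hw₂, le_rfl⟩, ?_⟩
        have hgx' : g x = a * g y + (1 - a) * g z := by
          rw [hxe]; simp
        have : W * ((1 - g x) / (1 - β)) =
            a * (W * ((1 - g y) / (1 - β))) + (1 - a) * (W * ((1 - g z) / (1 - β))) := by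
          rw [hgx']; field_simp; ring
        rw [this]
        nlinarith [mul_le_mul_of_nonneg_left e₁ h0, mul_le_mul_of_nonneg_left e₂ (sub_nonneg.2 h1)]
    · refine ⟨0, Ach.zero _ _ _ _, ?_⟩
      have e1 := hW x v hx (h.mono hn)
      have e2 : 1 ≤ (1 - g x) / (1 - β) := by
        rw [le_div_iff₀ hβ']; push Not at hgx; linarith
      nlinarith

/-- Bounding the value by a potential on the near points. -/
theorem Ach.near {R : Set X} {ε : ℝ} (near : X → Prop) (q : X → ℝ) {Far : ℝ} (hFar : 0 ≤ Far)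
    (hq0 : ∀ z, ‖z‖ ≤ 1 → 0 ≤ q z)
    (hqc : ∀ (a : ℝ) (y z : X), 0 ≤ a → a ≤ 1 →
      a * q y + (1 - a) * q z ≤ q (a • y + (1 - a) • z))
    (hqg : ∀ (a : ℝ) (y z : X), 0 ≤ a → a ≤ 1 → near y → near z →
      a * q y + (1 - a) * q z + rew ε a y z ≤ q (a • y + (1 - a) • z))
    {N : ℕ} (hfar : ∀ x v, ‖x‖ ≤ 1 → ¬ near x → Ach R ε N x v → v ≤ Far) :
    ∀ n ≤ N, ∀ (z : X) (v : ℝ), ‖z‖ ≤ 1 → Ach R ε n z v → v ≤ q z + Far + 1 := by
  intro n
  induction n with
  | zero =>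
    intro _ z v hz h
    have h' : v ≤ 0 := h
    linarith [hq0 z hz]
  | succ n ih =>
    intro hn x v hx h
    rcases h with h | ⟨a, y, z, v₁, v₂, h0, h1, hy1, hz1, hR, hxe, hy, hz, hv⟩
    · linarith [hq0 x hx]
    · have e₁ := ih (by omega) y v₁ hy1 hy
      have e₂ := ih (by omega) z v₂ hz1 hz
      have h1' : 0 ≤ 1 - a := sub_nonneg.2 h1
      have hr := rew_le (ε := ε) y z h0 h1
      rw [hxe]
      by_cases ny : near y
      · by_cases nz : near z
        · have := hqg a y z h0 h1 ny nz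
          nlinarith [mul_le_mul_of_nonneg_left e₁ h0, mul_le_mul_of_nonneg_left e₂ h1']
        · have e₃ : v₂ ≤ q z + Far := by
            linarith [hfar z v₂ hz1 nz (hz.mono (by omega)), hq0 z hz1]
          have := hqc a y z h0 h1
          nlinarith [mul_le_mul_of_nonneg_left e₁ h0, mul_le_mul_of_nonneg_left e₃ h1',
            mul_nonneg h1' h1']
      · have e₃ : v₁ ≤ q y + Far := by
          linarith [hfar y v₁ hy1 ny (hy.mono (by omega)), hq0 y hy1]
        have := hqc a y z h0 h1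
        nlinarith [mul_le_mul_of_nonneg_left e₃ h0, mul_le_mul_of_nonneg_left e₂ h1',
          mul_nonneg h0 h0]

/-- Quantitative separation of a point from a convex set. -/
theorem exists_sep {K : Set X} (hK : Convex ℝ K) (_hne : K.Nonempty) {y : X} {θ : ℝ} (hθ : 0 < θ)
    (hd : ∀ b ∈ K, 3 * θ ≤ ‖y - b‖) :
    ∃ g : X →L[ℝ] ℝ, ‖g‖ ≤ 1 ∧ ∀ b ∈ K, g b ≤ g y - 2 * θ := by
  have hdisj : Disjoint (Metric.ball y (3 * θ)) K := by
    rw [Set.disjoint_left]
    intro b hb hbK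
    have := hd b hbK
    rw [Metric.mem_ball, dist_comm, dist_eq_norm] at hb
    linarith
  obtain ⟨f, u, hf1, hf2⟩ := geometric_hahn_banach_open (convex_ball y _) Metric.isOpen_ball hK hdisj
  have hy : f y < u := hf1 y (Metric.mem_ball_self (by linarith))
  have hu : 0 < u - f y := by linarith
  have key : ∀ x : X, ‖x‖ = 1 → f x * (2 * θ) < u - f y := by
    intro x hx
    have : y + (2 * θ) • x ∈ Metric.ball y (3 * θ) := by
      rw [Metric.mem_ball, dist_eq_norm, add_sub_cancel_left, norm_smul, hx, Real.norm_eq_abs,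
        abs_of_pos (by linarith)]
      linarith
    have := hf1 _ this
    simp only [map_add, map_smul, smul_eq_mul] at this
    linarith
  refine ⟨-(2 * θ / (u - f y)) • f, ?_, ?_⟩
  · refine ContinuousLinearMap.opNorm_le_of_unit_norm zero_le_one ?_
    intro x hx
    have k1 := key x hx
    have k2 := key (-x) (by simpa using hx)
    simp only [map_neg] at k2
    simp only [smul_apply, smul_eq_mul, Real.norm_eq_abs]
    rw [neg_mul, abs_neg, abs_le]
    constructor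
    · rw [div_mul_eq_mul_div, le_div_iff₀ hu]; linarith
    · rw [div_mul_eq_mul_div, div_le_iff₀ hu]; linarith
  · intro b hb
    have := hf2 b hb
    simp only [smul_apply, smul_eq_mul]
    have e : 2 * θ ≤ 2 * θ / (u - f y) * (f b - f y) := by
      rw [div_mul_eq_mul_div, le_div_iff₀ hu]
      nlinarith
    linarith

/-- A finite net of the convex hull of `k` points of the unit ball. -/
theorem exists_net (k Q : ℕ) (hQ : 0 < Q) (x : Fin k → X) (hx : ∀ j, ‖x j‖ ≤ 1)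
    (c : Fin k → ℝ) (hc0 : ∀ j, 0 ≤ c j) (hc1 : ∀ j, c j ≤ 1) :
    ∃ a : Fin k → Fin (Q + 1),
      ‖∑ j, c j • x j - ∑ j, (((a j : ℕ) : ℝ) / Q) • x j‖ ≤ k / Q := by
  have hQ' : (0 : ℝ) < Q := by exact_mod_cast hQ
  refine ⟨fun j => ⟨⌊c j * Q⌋₊, ?_⟩, ?_⟩
  · rw [Nat.lt_succ_iff]
    apply Nat.floor_le_of_le
    nlinarith [hc1 j]
  · rw [← Finset.sum_sub_distrib]
    refine (norm_sum_le _ _).trans ?_
    have : ∀ j, ‖c j • x j - (((⌊c j * Q⌋₊ : ℕ) : ℝ) / Q) • x j‖ ≤ 1 / Q := by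
      intro j
      rw [← sub_smul, norm_smul, Real.norm_eq_abs]
      have h1 : ((⌊c j * Q⌋₊ : ℕ) : ℝ) ≤ c j * Q := Nat.floor_le (mul_nonneg (hc0 j) hQ'.le)
      have h2 : c j * Q < ((⌊c j * Q⌋₊ : ℕ) : ℝ) + 1 := Nat.lt_floor_add_one _
      have h3 : |c j - ((⌊c j * Q⌋₊ : ℕ) : ℝ) / Q| ≤ 1 / Q := by
        rw [abs_le]
        constructor
        · have : ((⌊c j * Q⌋₊ : ℕ) : ℝ) / Q ≤ c j := by rw [div_le_iff₀ hQ']; exact h1
          have : 0 ≤ 1 / (Q : ℝ) := by positivity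
          linarith
        · have : c j ≤ (((⌊c j * Q⌋₊ : ℕ) : ℝ) + 1) / Q := by rw [le_div_iff₀ hQ']; exact h2.le
          rw [add_div] at this
          linarith
      calc _ ≤ (1 / Q : ℝ) * 1 := mul_le_mul h3 (hx j) (norm_nonneg _) (by positivity)
        _ = _ := mul_one _
    calc _ ≤ ∑ _j : Fin k, (1 / Q : ℝ) := Finset.sum_le_sum fun j _ => this j
      _ = k / Q := by simp [div_eq_mul_inv]

/-- The potential on near points. -/
theorem exists_potential {A : Type*} [Fintype A] (P : A → X) {θ : ℝ} (hθ : 0 < θ) :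
    ∃ q : X → ℝ, (∀ z, ‖z‖ ≤ 1 → 0 ≤ q z) ∧
      (∀ z, q z ≤ (Fintype.card A : ℝ) ^ 2 / θ ^ 2) ∧
      (∀ (a : ℝ) (y z : X), 0 ≤ a → a ≤ 1 →
        a * q y + (1 - a) * q z ≤ q (a • y + (1 - a) • z)) ∧
      (∀ (a : ℝ) (y z : X), 0 ≤ a → a ≤ 1 → (∃ s, ‖y - P s‖ < 4 * θ) → (∃ s, ‖z - P s‖ < 4 * θ) →
        a * q y + (1 - a) * q z + rew (17 * θ) a y z ≤ q (a • y + (1 - a) • z)) := by
  choose g hg1 hg2 using fun s : A × A => exists_dual_vector'' ℝ (P s.1 - P s.2)
  have hθ2 : 0 < θ ^ 2 := by positivity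
  have key : ∀ (a : ℝ) (y z : X),
      (∑ s, (1 - (g s (a • y + (1 - a) • z)) ^ 2)) / θ ^ 2 =
      a * ((∑ s, (1 - (g s y) ^ 2)) / θ ^ 2) + (1 - a) * ((∑ s, (1 - (g s z) ^ 2)) / θ ^ 2) +
        a * (1 - a) * ((∑ s, (g s y - g s z) ^ 2) / θ ^ 2) := by
    intro a y z
    rw [← mul_div_assoc, ← mul_div_assoc, ← mul_div_assoc, ← add_div, ← add_div, Finset.mul_sum,
      Finset.mul_sum, Finset.mul_sum, ← Finset.sum_add_distrib, ← Finset.sum_add_distrib]
    congr 1
    refine Finset.sum_congr rfl fun s _ => ?_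
    simp only [map_add, map_smul, smul_eq_mul]
    ring
  refine ⟨fun z => (∑ s, (1 - (g s z) ^ 2)) / θ ^ 2, ?_, ?_, ?_, ?_⟩
  · intro z hz
    refine div_nonneg (Finset.sum_nonneg fun s _ => ?_) hθ2.le
    have := apply_le_one (hg1 s) hz
    have := sq_abs (g s z)
    nlinarith [abs_nonneg (g s z)]
  · intro z
    refine div_le_div_of_nonneg_right ?_ hθ2.le
    calc _ ≤ ∑ _s : A × A, (1 : ℝ) := Finset.sum_le_sum fun s _ => by nlinarith [sq_nonneg (g s z)]
      _ = _ := by simp [sq]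
  · intro a y z h0 h1
    simp only
    rw [key]
    have : 0 ≤ a * (1 - a) * ((∑ s, (g s y - g s z) ^ 2) / θ ^ 2) :=
      mul_nonneg (mul_nonneg h0 (by linarith))
        (div_nonneg (Finset.sum_nonneg fun s _ => sq_nonneg _) hθ2.le)
    linarith
  · rintro a y z h0 h1 ⟨s, hs⟩ ⟨t, ht⟩
    simp only
    rw [key]
    have ha : 0 ≤ a * (1 - a) := mul_nonneg h0 (by linarith)
    have hnn : 0 ≤ (∑ s, (g s y - g s z) ^ 2) / θ ^ 2 :=
      div_nonneg (Finset.sum_nonneg fun s _ => sq_nonneg _) hθ2.le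
    unfold rew
    split_ifs with hε
    · have h9 : 9 * θ ≤ ‖P s - P t‖ := by
        have : ‖y - z‖ ≤ ‖y - P s‖ + ‖P s - P t‖ + ‖z - P t‖ := by
          have e : y - z = (y - P s) + (P s - P t) - (z - P t) := by abel
          rw [e]
          exact (norm_sub_le _ _).trans (by gcongr; exact norm_add_le _ _)
        linarith
      have hg : θ ≤ g (s, t) y - g (s, t) z := by
        have e : g (s, t) y - g (s, t) z =
            g (s, t) (y - P s) + g (s, t) (P s - P t) - g (s, t) (z - P t) := by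
          simp only [map_sub]; ring
        have e1 := hg2 (s, t)
        simp only [RCLike.ofReal_real_eq_id, id] at e1
        have e2 : |g (s, t) (y - P s)| ≤ ‖y - P s‖ := by
          have := (g (s, t)).le_opNorm (y - P s)
          rw [Real.norm_eq_abs] at this
          nlinarith [hg1 (s, t), norm_nonneg (y - P s)]
        have e3 : |g (s, t) (z - P t)| ≤ ‖z - P t‖ := by
          have := (g (s, t)).le_opNorm (z - P t)
          rw [Real.norm_eq_abs] at this
          nlinarith [hg1 (s, t), norm_nonneg (z - P t)]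
        rw [e, e1]
        linarith [(abs_le.1 e2).1, (abs_le.1 e3).2]
      have h2 : θ ^ 2 ≤ ∑ s, (g s y - g s z) ^ 2 := by
        calc θ ^ 2 ≤ (g (s, t) y - g (s, t) z) ^ 2 := by gcongr
          _ ≤ _ := Finset.single_le_sum (f := fun s => (g s y - g s z) ^ 2)
            (fun s _ => sq_nonneg _) (Finset.mem_univ (s, t))
      have h3 : 1 ≤ (∑ s, (g s y - g s z) ^ 2) / θ ^ 2 := by
        rw [le_div_iff₀ hθ2]; linarith
      nlinarith
    · nlinarith

/-- The region cut out by the first `k` functionals. -/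
def Reg (θ : ℝ) (k : ℕ) (f : ℕ → X →L[ℝ] ℝ) (α : ℕ → ℝ) : Set X :=
  {z | ∀ i < k, α i + θ ≤ f i z}

theorem bellman_bound {θ : ℝ} (hθ : 0 < θ) {N : ℕ}
    (hN : ∀ (x : ℕ → X) f α, ¬ JSys θ (range N) x f α) :
    ∀ r : ℕ, ∃ W : ℝ, 0 ≤ W ∧ ∀ (k : ℕ) (x : ℕ → X) f α, k + r = N → JSys θ (range k) x f α →
      ∀ n z v, ‖z‖ ≤ 1 → Ach (Reg θ k f α) (17 * θ) n z v → v ≤ W := by
  intro r
  induction r with
  | zero =>
    refine ⟨0, le_rfl, fun k x f α hk hJ => ?_⟩
    obtain rfl : k = N := by simpa using hk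
    exact absurd hJ (hN x f α)
  | succ r ih =>
    obtain ⟨W', hW'0, hW'⟩ := ih
    obtain ⟨Q, hQ⟩ := exists_nat_gt (N / θ)
    have hQpos : 0 < Q := by
      have : (0 : ℝ) ≤ N / θ := by positivity
      exact_mod_cast this.trans_lt hQ
    set C : ℝ := (((Q + 1) ^ (N - r) : ℕ) : ℝ) ^ 2 / θ ^ 2 + W' + 1 with hC
    have hC0 : 0 ≤ C := by positivity
    refine ⟨C * (2 + θ) / θ, by positivity, ?_⟩
    intro k x f α hk hJ n z v hz hA
    have hfin : 0 ≤ C * (2 + θ) / θ := by positivity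
    by_cases hne : ∃ p : X, ‖p‖ ≤ 1 ∧ p ∈ Reg θ k f α
    swap
    · have : z ∉ Reg θ k f α := fun h => hne ⟨z, hz, h⟩
      linarith [hA.nonpos_of_notMem this]
    obtain ⟨p, hp1, hpR⟩ := hne
    set x' : ℕ → X := Function.update x k p with hx'
    have hx'1 : ∀ j ≤ k, ‖x' j‖ ≤ 1 := by
      intro j hj
      rcases hj.lt_or_eq with h | h
      · rw [hx', Function.update_of_ne h.ne]; exact hJ.1 j (mem_range.2 h)
      · rw [hx', h, Function.update_self]; exact hp1
    -- the supremum at depth n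
    set S : Set ℝ := {v | ∃ z, ‖z‖ ≤ 1 ∧ Ach (Reg θ k f α) (17 * θ) n z v} with hS
    have hSb : BddAbove S := ⟨n, fun v ⟨z, _, h⟩ => h.le_depth⟩
    have hS0 : (0 : ℝ) ∈ S := ⟨0, by simp, Ach.zero _ _ _ _⟩
    set W := sSup S with hWdef
    have hW0 : 0 ≤ W := le_csSup hSb hS0
    have hW : ∀ x v, ‖x‖ ≤ 1 → Ach (Reg θ k f α) (17 * θ) n x v → v ≤ W :=
      fun x v hx h => le_csSup hSb ⟨x, hx, h⟩
    -- the net
    set P : (Fin (k + 1) → Fin (Q + 1)) → X :=
      fun a => ∑ j : Fin (k + 1), (((a j : ℕ) : ℝ) / Q) • x' j with hP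
    obtain ⟨q, hq0, hqb, hqc, hqg⟩ := exists_potential P hθ
    have hfar : ∀ y v, ‖y‖ ≤ 1 → ¬ (∃ s, ‖y - P s‖ < 4 * θ) →
        Ach (Reg θ k f α) (17 * θ) n y v → v ≤ W' + W * (2 / (2 + θ)) := by
      intro y v hy hny hA
      push Not at hny
      set K : Set X := {b | ∃ c : Fin (k + 1) → ℝ, (∀ j, 0 ≤ c j) ∧ (∀ j, c j ≤ 1) ∧
        b = ∑ j, c j • x' j} with hK
      have hKc : Convex ℝ K := by
        rintro _ ⟨c, hc0, hc1, rfl⟩ _ ⟨d, hd0, hd1, rfl⟩ a b ha hb hab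
        refine ⟨fun j => a * c j + b * d j, fun j => ?_, fun j => ?_, ?_⟩
        · have := hc0 j; have := hd0 j; positivity
        · nlinarith [hc1 j, hd1 j]
        · simp only [add_smul, Finset.sum_add_distrib, mul_smul, Finset.smul_sum]
      have hKx : ∀ j : Fin (k + 1), x' j ∈ K := by
        intro j
        refine ⟨Pi.single j 1, fun i => ?_, fun i => ?_, ?_⟩
        · by_cases h : i = j
          · subst h; simp
          · simp [Pi.single_eq_of_ne h]
        · by_cases h : i = j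
          · subst h; simp
          · simp [Pi.single_eq_of_ne h]
        · rw [Finset.sum_eq_single j]
          · simp
          · intro i _ h; simp [Pi.single_eq_of_ne h]
          · simp
      have hd : ∀ b ∈ K, 3 * θ ≤ ‖y - b‖ := by
        rintro _ ⟨c, hc0, hc1, rfl⟩
        obtain ⟨a, ha⟩ := exists_net (k + 1) Q hQpos (fun j => x' j)
          (fun j => hx'1 j (Nat.lt_succ_iff.1 j.2)) c hc0 hc1
        have h1 := hny a
        have h2 : ((k + 1 : ℕ) : ℝ) / Q ≤ θ := by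
          have hQ' : (0 : ℝ) < Q := by exact_mod_cast hQpos
          rw [div_le_iff₀ hQ']
          rw [div_lt_iff₀ hθ] at hQ
          have : ((k + 1 : ℕ) : ℝ) ≤ N := by exact_mod_cast (by omega : k + 1 ≤ N)
          linarith
        have h3 : ‖y - P a‖ ≤ ‖y - ∑ j, c j • x' j‖ + ‖∑ j, c j • x' j - P a‖ :=
          norm_sub_le_norm_sub_add_norm_sub _ _ _
        simp only [hP] at h3 h1
        linarith
      obtain ⟨g, hg1, hg2⟩ := exists_sep hKc ⟨_, hKx 0⟩ hθ hd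
      have hgy := abs_le.1 (apply_le_one hg1 hy)
      have hJ' : JSys θ (range (k + 1)) x' (Function.update f k g)
          (Function.update α k (g y - 2 * θ)) := by
        refine ⟨fun j hj => hx'1 j (by simpa [Nat.lt_succ_iff] using hj), ?_, ?_, ?_⟩
        · intro i hi
          rcases (Nat.lt_succ_iff.1 (mem_range.1 hi)).lt_or_eq with h | h
          · rw [Function.update_of_ne h.ne]; exact hJ.2.1 i (mem_range.2 h)
          · rw [h, Function.update_self]; exact hg1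
        · intro i hi j hj hji
          rcases (Nat.lt_succ_iff.1 (mem_range.1 hi)).lt_or_eq with h | h
          · rw [Function.update_of_ne h.ne, Function.update_of_ne h.ne, hx',
              Function.update_of_ne (by omega)]
            exact hJ.2.2.1 i (mem_range.2 h) j (mem_range.2 (by omega)) hji
          · rw [h, Function.update_self, Function.update_self]
            exact hg2 _ (hKx ⟨j, mem_range.1 hj⟩)
        · intro i hi j hj hij
          have hj' := Nat.lt_succ_iff.1 (mem_range.1 hj)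
          have h : i < k := by omega
          rw [Function.update_of_ne h.ne, Function.update_of_ne h.ne]
          rcases hj'.lt_or_eq with h' | h'
          · rw [hx', Function.update_of_ne h'.ne]
            exact hJ.2.2.2 i (mem_range.2 h) j (mem_range.2 h') hij
          · rw [hx', h', Function.update_self]
            exact hpR i h
      have hReg : Reg θ k f α ∩ {x | g y - θ ≤ g x} =
          Reg θ (k + 1) (Function.update f k g) (Function.update α k (g y - 2 * θ)) := by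
        ext w
        simp only [Reg, Set.mem_inter_iff, Set.mem_ofPred_eq]
        constructor
        · rintro ⟨h1, h2⟩ i hi
          rcases (Nat.lt_succ_iff.1 hi).lt_or_eq with h | h
          · rw [Function.update_of_ne h.ne, Function.update_of_ne h.ne]; exact h1 i h
          · rw [h, Function.update_self, Function.update_self]; linarith
        · intro h1
          refine ⟨fun i h => ?_, ?_⟩
          · have := h1 i (by omega)
            rwa [Function.update_of_ne h.ne, Function.update_of_ne h.ne] at this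
          · have := h1 k (by omega)
            rw [Function.update_self, Function.update_self] at this
            linarith
      obtain ⟨v', hv', e⟩ := Ach.cut hg1 (β := g y - θ) (by linarith) hW0 hW n le_rfl y v hy hA
      rw [hReg] at hv'
      have e1 := hW' (k + 1) x' _ _ (by omega) hJ' n y v' hy hv'
      have e2 : (1 - g y) / (1 - (g y - θ)) ≤ 2 / (2 + θ) := by
        rw [div_le_div_iff₀ (by linarith) (by linarith)]
        nlinarith
      nlinarith [mul_le_mul_of_nonneg_left e2 hW0]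
    have hall := Ach.near (R := Reg θ k f α) (ε := 17 * θ) (fun y => ∃ s, ‖y - P s‖ < 4 * θ) q
      (Far := W' + W * (2 / (2 + θ))) (by positivity) hq0 hqc hqg hfar n le_rfl
    have hcard : (Fintype.card (Fin (k + 1) → Fin (Q + 1)) : ℝ) = (((Q + 1) ^ (N - r) : ℕ) : ℝ) := by
      have : N - r = k + 1 := by omega
      rw [this]; simp
    have hWle : W ≤ C + W * (2 / (2 + θ)) := by
      refine csSup_le ⟨0, hS0⟩ ?_
      rintro w ⟨z, hz, hw⟩
      have e1 := hall z w hz hw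
      have e2 := hqb z
      rw [hcard] at e2
      linarith
    have hWle' : W ≤ C * (2 + θ) / θ := by
      rw [le_div_iff₀ hθ]
      have : W * (2 / (2 + θ)) * (2 + θ) = W * 2 := by field_simp
      nlinarith
    linarith [hW z v hz hA]

/-- If no James system of some length exists, there is a bounded convex function on the unit ball
with a uniform midpoint gap. -/
theorem exists_gap_fun {θ : ℝ} (hθ : 0 < θ) {N : ℕ}
    (hN : ∀ (x : ℕ → X) f α, ¬ JSys θ (range N) x f α) :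
    ∃ φ : X → ℝ, (∀ x, ‖x‖ ≤ 1 → 0 ≤ φ x ∧ φ x ≤ 1) ∧
      (∀ (a : ℝ) (y z : X), 0 ≤ a → a ≤ 1 → ‖y‖ ≤ 1 → ‖z‖ ≤ 1 →
        φ (a • y + (1 - a) • z) ≤ a * φ y + (1 - a) * φ z) ∧
      ∃ δ : ℝ, 0 < δ ∧ ∀ y z : X, ‖y‖ ≤ 1 → ‖z‖ ≤ 1 → 17 * θ ≤ ‖y - z‖ →
        φ ((1 / 2 : ℝ) • (y + z)) ≤ (φ y + φ z) / 2 - δ := by
  obtain ⟨W, hW0, hW⟩ := bellman_bound hθ hN N
  have hW' : ∀ n (z : X) v, ‖z‖ ≤ 1 → Ach Set.univ (17 * θ) n z v → v ≤ W := by
    intro n z v hz h
    refine hW 0 (fun _ => 0) (fun _ => 0) (fun _ => 0) (by simp) (by simp [JSys]) n z v hz ?_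
    have : Reg θ 0 (fun _ => (0 : X →L[ℝ] ℝ)) (fun _ => 0) = Set.univ := by
      ext; simp [Reg]
    rwa [this]
  set S : X → Set ℝ := fun x => {v | ∃ n, Ach Set.univ (17 * θ) n x v} with hS
  have hS0 : ∀ x, (0 : ℝ) ∈ S x := fun x => ⟨0, Ach.zero _ _ _ _⟩
  have hSb : ∀ x, ‖x‖ ≤ 1 → BddAbove (S x) := fun x hx => ⟨W, fun v ⟨n, h⟩ => hW' n x v hx h⟩
  set V : X → ℝ := fun x => sSup (S x) with hV
  have hV0 : ∀ x, ‖x‖ ≤ 1 → 0 ≤ V x := fun x hx => le_csSup (hSb x hx) (hS0 x)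
  have hV1 : ∀ x, ‖x‖ ≤ 1 → V x ≤ W := fun x hx =>
    csSup_le ⟨0, hS0 x⟩ fun v ⟨n, h⟩ => hW' n x v hx h
  have hconc : ∀ (a : ℝ) (y z : X), 0 ≤ a → a ≤ 1 → ‖y‖ ≤ 1 → ‖z‖ ≤ 1 →
      a * V y + (1 - a) * V z + rew (17 * θ) a y z ≤ V (a • y + (1 - a) • z) := by
    intro a y z h0 h1 hy hz
    have h1' : 0 ≤ 1 - a := sub_nonneg.2 h1
    have hx : ‖a • y + (1 - a) • z‖ ≤ 1 := by
      refine (norm_add_le _ _).trans ?_
      rw [norm_smul, norm_smul, Real.norm_eq_abs, Real.norm_eq_abs, abs_of_nonneg h0,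
        abs_of_nonneg h1']
      nlinarith
    refine le_of_forall_pos_le_add fun η hη => ?_
    obtain ⟨v₁, ⟨n₁, hn₁⟩, e₁⟩ := exists_lt_of_lt_csSup (⟨0, hS0 y⟩ : (S y).Nonempty)
      (show V y - η < sSup (S y) by simp only [hV]; linarith)
    obtain ⟨v₂, ⟨n₂, hn₂⟩, e₂⟩ := exists_lt_of_lt_csSup (⟨0, hS0 z⟩ : (S z).Nonempty)
      (show V z - η < sSup (S z) by simp only [hV]; linarith)
    have : a * v₁ + (1 - a) * v₂ + rew (17 * θ) a y z ≤ V (a • y + (1 - a) • z) :=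
      le_csSup (hSb _ hx) ⟨max n₁ n₂ + 1, Or.inr ⟨a, y, z, v₁, v₂, h0, h1, hy, hz, Set.mem_univ _,
        rfl, hn₁.mono (le_max_left _ _), hn₂.mono (le_max_right _ _), le_rfl⟩⟩
    nlinarith [mul_le_mul_of_nonneg_left e₁.le h0, mul_le_mul_of_nonneg_left e₂.le h1']
  have hW1 : 0 < W + 1 := by linarith
  refine ⟨fun x => 1 - V x / (W + 1), fun x hx => ⟨?_, ?_⟩, ?_, 1 / 4 / (W + 1), by positivity, ?_⟩
  · have : V x / (W + 1) ≤ 1 := by rw [div_le_one hW1]; linarith [hV1 x hx]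
    linarith
  · have : 0 ≤ V x / (W + 1) := div_nonneg (hV0 x hx) hW1.le
    linarith
  · intro a y z h0 h1 hy hz
    have e := hconc a y z h0 h1 hy hz
    have e2 := rew_nonneg (ε := 17 * θ) y z h0 h1
    have : (a * V y + (1 - a) * V z) / (W + 1) ≤ V (a • y + (1 - a) • z) / (W + 1) :=
      div_le_div_of_nonneg_right (by linarith) hW1.le
    have e3 : a * (1 - V y / (W + 1)) + (1 - a) * (1 - V z / (W + 1)) =
        1 - (a * V y + (1 - a) * V z) / (W + 1) := by field_simp; ring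
    simp only
    rw [e3]; linarith
  · intro y z hy hz hyz
    have e := hconc (1 / 2) y z (by norm_num) (by norm_num) hy hz
    have e1 : (1 / 2 : ℝ) • y + (1 - 1 / 2 : ℝ) • z = (1 / 2 : ℝ) • (y + z) := by
      rw [smul_add]; norm_num
    rw [e1, rew, if_pos hyz] at e
    have : (1 / 2 * V y + (1 - 1 / 2) * V z + 1 / 2 * (1 - 1 / 2)) / (W + 1) ≤
        V ((1 / 2 : ℝ) • (y + z)) / (W + 1) := div_le_div_of_nonneg_right e hW1.le
    have e3 : (1 - V y / (W + 1) + (1 - V z / (W + 1))) / 2 - 1 / 4 / (W + 1) =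
        1 - (1 / 2 * V y + (1 - 1 / 2) * V z + 1 / 2 * (1 - 1 / 2)) / (W + 1) := by
      field_simp; ring
    simp only
    rw [e3]; linarith

end Crest.Agent.R140
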