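import Mathlib
import Crest.Agent.R140.Bellman
import Crest.Agent.Lib.Ramsey.Hypergraph

/-!
Alternating block patterns in James systems.
-/

set_option autoImplicit false

namespace Crest.Agent.R140

open Finset

variable {X : Type*} [NormedAddCommGroup X] [NormedSpace ℝ X]

/-- The alternating sum with blocks of `k` consecutive elements of `T`. -/
noncomputable def pat (x : ℕ → X) (k : ℕ) (T : Finset ℕ) : X :=
  ∑ i ∈ T, ((-1 : ℝ) ^ ((T.filter (· < i)).card / k)) • x i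

theorem norm_pat_le (x : ℕ → X) (k : ℕ) (T : Finset ℕ) (hx : ∀ i ∈ T, ‖x i‖ ≤ 1) :
    ‖pat x k T‖ ≤ T.card := by
  refine (norm_sum_le _ _).trans ?_
  calc _ ≤ ∑ _i ∈ T, (1 : ℝ) := by
        refine sum_le_sum fun i hi => ?_
        rw [norm_smul, norm_pow, norm_neg, norm_one, one_pow, one_mul]
        exact hx i hi
    _ = _ := by simp

theorem pat_blocks (x : ℕ → X) {k n : ℕ} (A : ℕ → Finset ℕ) (hA : ∀ j < n, (A j).card = k)
    (hlt : ∀ j j', j < j' → j' < n → ∀ a ∈ A j, ∀ b ∈ A j', a < b) :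
    ((range n).biUnion A).card = n * k ∧
      pat x k ((range n).biUnion A) = ∑ j ∈ range n, (-1 : ℝ) ^ j • ∑ i ∈ A j, x i := by
  have hdisj : (↑(range n) : Set ℕ).PairwiseDisjoint A := by
    intro j hj j' hj' hne
    rw [Function.onFun, disjoint_left]
    intro a ha ha'
    rcases lt_or_gt_of_ne hne with h | h
    · exact lt_irrefl _ (hlt j j' h (by simpa using hj') a ha a ha')
    · exact lt_irrefl _ (hlt j' j h (by simpa using hj) a ha' a ha)
  refine ⟨?_, ?_⟩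
  · rw [card_biUnion hdisj, sum_congr rfl fun j hj => hA j (mem_range.1 hj)]
    simp
  · rw [pat, sum_biUnion hdisj]
    refine sum_congr rfl fun j hj => ?_
    have hjn := mem_range.1 hj
    rw [smul_sum]
    refine sum_congr rfl fun i hi => ?_
    congr 2
    rw [filter_biUnion, card_biUnion]
    swap
    · intro j₁ h₁ j₂ h₂ hne
      exact (hdisj h₁ h₂ hne).mono (filter_subset _ _) (filter_subset _ _)
    rw [← sum_range_add_sum_Ico _ (show j + 1 ≤ n from hjn), sum_range_succ]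
    have e1 : ∑ j' ∈ range j, ((A j').filter (· < i)).card = j * k := by
      rw [sum_congr rfl (g := fun _ => k)]
      · simp
      · intro j' hj'
        have h := mem_range.1 hj'
        rw [filter_true_of_mem fun a ha => hlt j' j h hjn a ha i hi]
        exact hA j' (by omega)
    have e2 : ∑ j' ∈ Ico (j + 1) n, ((A j').filter (· < i)).card = 0 := by
      refine sum_eq_zero fun j' hj' => ?_
      have h := mem_Ico.1 hj'
      rw [filter_false_of_mem fun a ha => not_lt.2 (hlt j j' h.1 h.2 i hi a ha).le]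
      rfl
    have e3 : ((A j).filter (· < i)).card < k := by
      rw [← hA j hjn]
      exact card_lt_card (filter_ssubset.2 ⟨i, hi, lt_irrefl _⟩)
    rw [e1, e2, add_zero, add_comm, Nat.add_mul_div_right _ _ (by omega), Nat.div_eq_of_lt e3,
      zero_add]

theorem pat_image (x : ℕ → X) (k : ℕ) {h : ℕ → ℕ} (hh : StrictMono h) (T : Finset ℕ) :
    pat x k (T.image h) = pat (x ∘ h) k T := by
  rw [pat, pat, sum_image fun a _ b _ e => hh.injective e]
  refine sum_congr rfl fun i _ => ?_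
  rw [filter_image, card_image_of_injective _ hh.injective]
  simp only [hh.lt_iff_lt, Function.comp]

theorem exists_enum (H : Finset ℕ) : ∃ h : ℕ → ℕ, StrictMono h ∧ ∀ i < H.card, h i ∈ H := by
  refine ⟨fun i => if hi : i < H.card then H.orderEmbOfFin rfl ⟨i, hi⟩ else H.sup id + i + 1,
    ?_, ?_⟩
  · intro i j hij
    by_cases hj : j < H.card
    · have hi : i < H.card := by omega
      simp only [hi, hj, dif_pos]
      exact (H.orderEmbOfFin rfl).strictMono (Fin.mk_lt_mk.2 hij)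
    · by_cases hi : i < H.card
      · simp only [hi, hj, dif_pos, dif_neg, not_false_iff]
        have : H.orderEmbOfFin rfl ⟨i, hi⟩ ≤ H.sup id :=
          le_sup (f := id) (orderEmbOfFin_mem H rfl _)
        omega
      · simp only [hi, hj, dif_neg, not_false_iff]
        omega
  · intro i hi
    simp only [hi, dif_pos]
    exact orderEmbOfFin_mem H rfl _

theorem JSys.comp {θ : ℝ} {N M : ℕ} {x : ℕ → X} {f : ℕ → X →L[ℝ] ℝ} {α : ℕ → ℝ}
    (hJ : JSys θ (range N) x f α) {h : ℕ → ℕ} (hh : StrictMono h) (hN : ∀ i < M, h i < N) :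
    JSys θ (range M) (x ∘ h) (f ∘ h) (α ∘ h) := by
  have hm : ∀ i ∈ range M, h i ∈ range N := fun i hi => mem_range.2 (hN i (mem_range.1 hi))
  exact ⟨fun j hj => hJ.1 _ (hm j hj), fun i hi => hJ.2.1 _ (hm i hi),
    fun i hi j hj hji => hJ.2.2.1 _ (hm i hi) _ (hm j hj) (hh.monotone hji),
    fun i hi j hj hij => hJ.2.2.2 _ (hm i hi) _ (hm j hj) (hh hij)⟩

theorem ramsey_enum (r M : ℕ) : ∃ N : ℕ, ∀ c : Finset ℕ → Prop, ∃ h : ℕ → ℕ, StrictMono h ∧
    (∀ i < M, h i < N) ∧ ∃ k : Prop, ∀ T ⊆ range M, T.card = r → (c (T.image h) ↔ k) := by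
  obtain ⟨N, hN⟩ := Lib.Ramsey.ramsey Prop r M
  refine ⟨N, fun c => ?_⟩
  obtain ⟨H, hH, hc, k, hk⟩ := hN (range N) (by simp) c
  obtain ⟨h, hh, hm⟩ := exists_enum H
  refine ⟨h, hh, fun i hi => mem_range.1 (hH (hm i (by omega))), k, fun T hT hTc => ?_⟩
  rw [hk (T.image h)]
  · intro a ha
    obtain ⟨i, hi, rfl⟩ := mem_image.1 ha
    exact hm i (by rw [hc]; exact mem_range.1 (hT hi))
  · rw [card_image_of_injective _ hh.injective, hTc]

theorem ramsey_real {η : ℝ} (hη : 0 < η) (M : ℕ) : ∃ N : ℕ, ∀ u v : ℕ → ℕ → ℝ,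
    (∀ i < N, ∀ j < N, |u i j| ≤ 1 ∧ |v i j| ≤ 1) → ∃ h : ℕ → ℕ, StrictMono h ∧
    (∀ i < M, h i < N) ∧ ∃ a b : ℝ, ∀ i j, i < j → j < M →
      |u (h i) (h j) - a| ≤ η ∧ |v (h i) (h j) - b| ≤ η := by
  set Q : ℕ := ⌊2 / η⌋₊ with hQ
  obtain ⟨N, hN⟩ := Lib.Ramsey.ramsey_pairs (Fin (Q + 1) × Fin (Q + 1)) M
  refine ⟨N, fun u v huv => ?_⟩
  set rd : ℝ → Fin (Q + 1) := fun s => ⟨min ⌊(s + 1) / η⌋₊ Q, by omega⟩ with hrd
  have key : ∀ s : ℝ, |s| ≤ 1 → |s - (((rd s : ℕ) : ℝ) * η - 1)| ≤ η := by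
    intro s hs
    rw [abs_le] at hs
    have h0 : 0 ≤ (s + 1) / η := div_nonneg (by linarith) hη.le
    have h1 : ⌊(s + 1) / η⌋₊ ≤ Q :=
      Nat.floor_le_floor (div_le_div_of_nonneg_right (by linarith) hη.le)
    have h2 : (rd s : ℕ) = ⌊(s + 1) / η⌋₊ := min_eq_left h1
    rw [h2]
    have h3 := Nat.floor_le h0
    have h4 := Nat.lt_floor_add_one ((s + 1) / η)
    rw [le_div_iff₀ hη] at h3
    rw [div_lt_iff₀ hη] at h4
    rw [abs_le]
    constructor <;> nlinarith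
  obtain ⟨H, hH, hc, k, hk⟩ := hN (range N) (by simp) (fun i j => (rd (u i j), rd (v i j)))
  obtain ⟨h, hh, hm⟩ := exists_enum H
  have hlt : ∀ i < M, h i < N := fun i hi => mem_range.1 (hH (hm i (by omega)))
  refine ⟨h, hh, hlt, ((k.1 : ℕ) : ℝ) * η - 1, ((k.2 : ℕ) : ℝ) * η - 1, fun i j hij hj => ?_⟩
  have e := hk (h i) (hm i (by omega)) (h j) (hm j (by omega)) (hh hij)
  have b := huv (h i) (hlt i (by omega)) (h j) (hlt j hj)
  rw [← e]
  exact ⟨key _ b.1, key _ b.2⟩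

/-- All realisations of the pattern `(n, k)` in suitable arbitrarily long James systems have norm
at most `c`. -/
def PatLe (X : Type*) [NormedAddCommGroup X] [NormedSpace ℝ X] (θ : ℝ) (n k : ℕ) (c : ℝ) : Prop :=
  ∀ M : ℕ, ∃ (x : ℕ → X) (f : ℕ → X →L[ℝ] ℝ) (α : ℕ → ℝ), JSys θ (range M) x f α ∧
    ∀ T ⊆ range M, T.card = n * k → ‖pat x k T‖ ≤ c

theorem PatLe.mono {θ : ℝ} {n k : ℕ} {c c' : ℝ} (h : PatLe X θ n k c) (hc : c ≤ c') :
    PatLe X θ n k c' := by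
  intro M
  obtain ⟨x, f, α, hJ, hT⟩ := h M
  exact ⟨x, f, α, hJ, fun T h1 h2 => (hT T h1 h2).trans hc⟩

theorem pat_comp_le {N M n k : ℕ} {c : ℝ} {x : ℕ → X}
    (hT : ∀ T ⊆ range N, T.card = n * k → ‖pat x k T‖ ≤ c) {h : ℕ → ℕ} (hh : StrictMono h)
    (hN : ∀ i < M, h i < N) : ∀ T ⊆ range M, T.card = n * k → ‖pat (x ∘ h) k T‖ ≤ c := by
  intro T h1 h2
  rw [← pat_image x k hh]
  refine hT _ ?_ (by rw [card_image_of_injective _ hh.injective, h2])
  intro a ha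
  obtain ⟨i, hi, rfl⟩ := mem_image.1 ha
  exact mem_range.2 (hN i (mem_range.1 (h1 hi)))

/-- Ordered families of vectors whose alternating sums of length `n` are short, while sums of `t`
aligned alternating sums are long. -/
def Config (X : Type*) [NormedAddCommGroup X] [NormedSpace ℝ X] (n t g : ℕ) (b u l : ℝ) : Prop :=
  ∀ M : ℕ, ∃ y : ℕ → X, (∀ p < M, ‖y p‖ ≤ b) ∧
    (∀ q : ℕ → ℕ, (∀ r < n, q r < M) → (∀ r, r + 1 < n → q r < q (r + 1)) →
      ‖∑ r ∈ range n, (-1 : ℝ) ^ r • y (q r)‖ ≤ u) ∧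
    (∀ (j0 : ℕ → ℕ) (P : ℕ → ℕ → ℕ), (∀ i < t, j0 i ≤ g) → (∀ i < t, ∀ r < n, P i r < M) →
      (∀ i < t, ∀ i' < t, ∀ r < n, ∀ r' < n, j0 i + r + 1 = j0 i' + r' → P i r < P i' r') →
      (∀ i < t, ∀ i' < t, ∀ r < n, ∀ r' < n, i ≠ i' → j0 i + r = j0 i' + r' → P i r ≠ P i' r') →
      l ≤ ‖∑ i ∈ range t, ∑ r ∈ range n, (-1 : ℝ) ^ (j0 i + r) • y (P i r)‖)

theorem lt_of_chain {n : ℕ} {q : ℕ → ℕ} (hq : ∀ r, r + 1 < n → q r < q (r + 1)) :
    ∀ r r', r < r' → r' < n → q r < q r' := by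
  intro r r' h
  induction h with
  | refl => exact hq r
  | step _ ih => exact fun h' => (ih (by omega)).trans (hq _ h')

/-- Block sums with spacing `s ≥ k` and offset `o`. -/
noncomputable def blk (x : ℕ → X) (k s o : ℕ) (p : ℕ) : X := ∑ i ∈ Ico (p * s + o) (p * s + o + k), x i

omit [NormedSpace ℝ X] in
theorem norm_blk_le {x : ℕ → X} {k s o p M : ℕ} (hx : ∀ i ∈ range M, ‖x i‖ ≤ 1)
    (hp : p * s + o + k ≤ M) : ‖blk x k s o p‖ ≤ k := by
  refine (norm_sum_le _ _).trans ?_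
  calc _ ≤ ∑ _i ∈ Ico (p * s + o) (p * s + o + k), (1 : ℝ) :=
        sum_le_sum fun i hi => hx i (mem_range.2 (by have := (mem_Ico.1 hi).2; omega))
    _ = _ := by simp

theorem blk_lt {k s o p p' a b : ℕ} (hks : k ≤ s) (hp : p < p')
    (ha : a ∈ Ico (p * s + o) (p * s + o + k)) (hb : b ∈ Ico (p' * s + o) (p' * s + o + k)) :
    a < b := by
  have h1 := (mem_Ico.1 ha).2
  have h2 := (mem_Ico.1 hb).1
  have : (p + 1) * s ≤ p' * s := Nat.mul_le_mul_right _ hp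
  rw [add_mul] at this
  omega

theorem alt_blk_le {x : ℕ → X} {n k s o M M₁ : ℕ} {c : ℝ} (hks : k ≤ s)
    (hT : ∀ T ⊆ range M₁, T.card = n * k → ‖pat x k T‖ ≤ c) (hM : M * s + o ≤ M₁)
    (q : ℕ → ℕ) (hq1 : ∀ r < n, q r < M) (hq2 : ∀ r, r + 1 < n → q r < q (r + 1)) :
    ‖∑ r ∈ range n, (-1 : ℝ) ^ r • blk x k s o (q r)‖ ≤ c := by
  obtain ⟨e1, e2⟩ := pat_blocks x (k := k) (n := n)
    (fun r => Ico (q r * s + o) (q r * s + o + k)) (fun j _ => by simp)
    (fun j j' h1 h2 a ha b hb => blk_lt hks (lt_of_chain hq2 j j' h1 h2) ha hb)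
  simp only [blk]
  rw [← e2]
  refine hT _ ?_ e1
  intro a ha
  obtain ⟨r, hr, ha⟩ := mem_biUnion.1 ha
  have h1 := (mem_Ico.1 ha).2
  have : (q r + 1) * s ≤ M * s := Nat.mul_le_mul_right _ (hq1 r (mem_range.1 hr))
  rw [add_mul] at this
  exact mem_range.2 (by omega)

end Crest.Agent.R140
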