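import Mathlib
import Crest.Agent.R140.Pattern

/-!
Existence of configurations in spaces with James systems of all lengths.
-/

set_option autoImplicit false

namespace Crest.Agent.R140

open Finset

variable {X : Type*} [NormedAddCommGroup X] [NormedSpace ℝ X]

theorem abs_apply_sum_sub_le (F : X →L[ℝ] ℝ) (x : ℕ → X) (A : Finset ℕ) {a η : ℝ}
    (h : ∀ i ∈ A, |F (x i) - a| ≤ η) : |F (∑ i ∈ A, x i) - A.card * a| ≤ A.card * η := by
  rw [map_sum]
  have : ∑ i ∈ A, F (x i) - A.card * a = ∑ i ∈ A, (F (x i) - a) := by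
    rw [sum_sub_distrib]; simp
  rw [this]
  refine (abs_sum_le_sum_abs _ _).trans ?_
  calc _ ≤ ∑ _i ∈ A, η := sum_le_sum h
    _ = _ := by simp

/-- The bounded case. -/
theorem config_of_bounded {θ : ℝ} (hθ : 0 < θ) {g k t : ℕ} (ht : 0 < t) {u : ℝ}
    (hA : PatLe X θ (g + 1) k u) : Config X (g + 1) t g k u (t * k * θ / 4) := by
  intro M
  set n := g + 1 with hn
  set η : ℝ := θ / (4 * (n + 1)) with hη
  have hη0 : 0 < η := by positivity
  set M₁ : ℕ := (M + 1) * (k + 1) + 3 with hM₁
  obtain ⟨N, hN⟩ := ramsey_real hη0 M₁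
  obtain ⟨x, f, α, hJ, hT⟩ := hA N
  obtain ⟨h, hh, hhN, a, b, hab⟩ := hN (fun i j => f j (x i)) (fun i j => f i (x j))
    (fun i hi j hj => ⟨apply_le_one (hJ.2.1 j (mem_range.2 hj)) (hJ.1 i (mem_range.2 hi)),
      apply_le_one (hJ.2.1 i (mem_range.2 hi)) (hJ.1 j (mem_range.2 hj))⟩)
  have hJ' := hJ.comp hh hhN
  have hT' := pat_comp_le hT hh hhN
  set x' := x ∘ h with hx'
  set f' := f ∘ h with hf'
  have hab' : ∀ i j, i < j → j < M₁ → |f' j (x' i) - a| ≤ η ∧ |f' i (x' j) - b| ≤ η := hab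
  have hba : θ - 2 * η ≤ b - a := by
    have e1 := hJ'.2.2.1 1 (mem_range.2 (by omega)) 0 (mem_range.2 (by omega)) (by omega)
    have e2 := hJ'.2.2.2 1 (mem_range.2 (by omega)) 2 (mem_range.2 (by omega)) (by omega)
    have e3 := (abs_le.1 (hab' 0 1 (by omega) (by omega)).1).1
    have e4 := (abs_le.1 (hab' 1 2 (by omega) (by omega)).2).2
    linarith
  have hMM : ∀ p < M, p * (k + 1) + 1 + k ≤ M * (k + 1) := by
    intro p hp
    have : (p + 1) * (k + 1) ≤ M * (k + 1) := Nat.mul_le_mul_right _ hp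
    rw [add_mul] at this
    omega
  have hM1 : M * (k + 1) + 1 ≤ M₁ := by rw [hM₁, add_mul]; omega
  refine ⟨blk x' k (k + 1) 1, fun p hp => norm_blk_le hJ'.1 (by have := hMM p hp; omega),
    alt_blk_le (Nat.le_succ k) hT' hM1, ?_⟩
  intro j0 P hj0 hPM hP1 _
  -- values of threshold functionals on blocks
  have hlo : ∀ s ≤ M, ∀ p < s, |f' (s * (k + 1)) (blk x' k (k + 1) 1 p) - k * a| ≤ k * η := by
    intro s hs p hp
    have := abs_apply_sum_sub_le (f' (s * (k + 1))) x' (Ico (p * (k + 1) + 1) (p * (k + 1) + 1 + k))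
      (a := a) (η := η) (fun i hi => by
        have h1 := (mem_Ico.1 hi).2
        have h2 : (p + 1) * (k + 1) ≤ s * (k + 1) := Nat.mul_le_mul_right _ hp
        have h3 : s * (k + 1) ≤ M * (k + 1) := Nat.mul_le_mul_right _ hs
        rw [add_mul] at h2
        exact (hab' i _ (by omega) (by omega)).1)
    simpa [blk] using this
  have hhi : ∀ s p, s ≤ p → p < M →
      |f' (s * (k + 1)) (blk x' k (k + 1) 1 p) - k * b| ≤ k * η := by
    intro s p hp hpM
    have := abs_apply_sum_sub_le (f' (s * (k + 1))) x' (Ico (p * (k + 1) + 1) (p * (k + 1) + 1 + k))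
      (a := b) (η := η) (fun i hi => by
        have h1 := (mem_Ico.1 hi)
        have h2 : s * (k + 1) ≤ p * (k + 1) := Nat.mul_le_mul_right _ hp
        have h3 := hMM p hpM
        exact (hab' _ i (by omega) (by omega)).2)
    simpa [blk] using this
  have hchain : ∀ i < t, ∀ r r', r ≤ r' → r' < n → P i r ≤ P i r' := by
    intro i hi r r' h1 h2
    rcases h1.lt_or_eq with h1 | rfl
    · exact (lt_of_chain (q := P i) (fun r hr => hP1 i hi i hi r (by omega) (r + 1) hr (by omega))
        r r' h1 h2).le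
    · exact le_rfl
  obtain ⟨i₁, hi₁, hmin⟩ := exists_min_image (range t) (fun i => P i (g - j0 i))
    ⟨0, mem_range.2 ht⟩
  obtain ⟨i₂, hi₂, hmax⟩ := exists_max_image (range t) (fun i => P i (g - j0 i))
    ⟨0, mem_range.2 ht⟩
  have hi₁' := mem_range.1 hi₁
  have hi₂' := mem_range.1 hi₂
  set lo := P i₁ (g - j0 i₁) with hlodef
  set hi := P i₂ (g - j0 i₂) + 1 with hhidef
  have hlohi : lo < hi := by have := hmax i₁ hi₁; omega
  have hhiM : hi ≤ M := hPM i₂ hi₂' _ (by omega)
  set G : X →L[ℝ] ℝ := f' (lo * (k + 1)) - f' (hi * (k + 1)) with hG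
  have hGn : ‖G‖ ≤ 2 := by
    have h2 : hi * (k + 1) ≤ M * (k + 1) := Nat.mul_le_mul_right _ hhiM
    have h1 : lo * (k + 1) ≤ hi * (k + 1) := Nat.mul_le_mul_right _ hlohi.le
    have e1 := hJ'.2.1 (lo * (k + 1)) (mem_range.2 (by omega))
    have e2 := hJ'.2.1 (hi * (k + 1)) (mem_range.2 (by omega))
    exact (norm_sub_le _ _).trans (by linarith)
  have hterm : ∀ i < t, ∀ r < n, (if r = g - j0 i then k * (b - a) else 0) - 2 * k * η ≤
      (-1 : ℝ) ^ g * ((-1 : ℝ) ^ (j0 i + r) * G (blk x' k (k + 1) 1 (P i r))) := by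
    intro i hi' r hr
    have hj := hj0 i hi'
    have hsign : ∀ v : ℝ, |v| ≤ 2 * k * η →
        0 - 2 * k * η ≤ (-1 : ℝ) ^ g * ((-1 : ℝ) ^ (j0 i + r) * v) := by
      intro v hv
      have : |(-1 : ℝ) ^ g * ((-1 : ℝ) ^ (j0 i + r) * v)| = |v| := by
        simp [abs_mul, abs_pow]
      linarith [neg_abs_le ((-1 : ℝ) ^ g * ((-1 : ℝ) ^ (j0 i + r) * v))]
    rcases lt_trichotomy (j0 i + r) g with h1 | h1 | h1
    · rw [if_neg (by omega)]
      have h2 : P i r < lo := by
        refine (hchain i hi' r (g - 1 - j0 i) (by omega) (by omega)).trans_lt ?_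
        exact hP1 i hi' i₁ hi₁' _ (by omega) _ (by omega) (by have := hj0 i₁ hi₁'; omega)
      have e1 := abs_le.1 (hlo lo (by omega) (P i r) h2)
      have e2 := abs_le.1 (hlo hi hhiM (P i r) (by omega))
      apply hsign
      rw [hG, sub_apply, abs_le]
      constructor <;> linarith
    · rw [if_pos (by omega), h1, ← mul_assoc, ← pow_add, Even.neg_one_pow ⟨g, rfl⟩, one_mul]
      have hr' : r = g - j0 i := by omega
      have h2 : lo ≤ P i r := hr' ▸ hmin i (mem_range.2 hi')
      have h3 : P i r < hi := by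
        have := hmax i (mem_range.2 hi')
        rw [hr']; omega
      have e1 := abs_le.1 (hhi lo (P i r) h2 (hPM i hi' r hr))
      have e2 := abs_le.1 (hlo hi hhiM (P i r) h3)
      rw [hG, sub_apply]
      linarith
    · rw [if_neg (by omega)]
      have h2 : hi ≤ P i r := by
        refine le_trans ?_ (hchain i hi' (g + 1 - j0 i) r (by omega) hr)
        exact hP1 i₂ hi₂' i hi' _ (by omega) _ (by omega) (by have := hj0 i₂ hi₂'; omega)
      have e1 := abs_le.1 (hhi lo (P i r) (by omega) (hPM i hi' r hr))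
      have e2 := abs_le.1 (hhi hi (P i r) h2 (hPM i hi' r hr))
      apply hsign
      rw [hG, sub_apply, abs_le]
      constructor <;> linarith
  set S := ∑ i ∈ range t, ∑ r ∈ range n, (-1 : ℝ) ^ (j0 i + r) • blk x' k (k + 1) 1 (P i r)
    with hS
  have hGS : t * (k * (b - a) - n * (2 * k * η)) ≤ (-1 : ℝ) ^ g * G S := by
    rw [hS, map_sum, mul_sum]
    calc t * (k * (b - a) - n * (2 * k * η))
        = ∑ _i ∈ range t, (k * (b - a) - n * (2 * k * η)) := by
          rw [sum_const, card_range, nsmul_eq_mul]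
      _ ≤ _ := by
        refine sum_le_sum fun i hi' => ?_
        have hi'' := mem_range.1 hi'
        rw [map_sum, mul_sum]
        calc k * (b - a) - n * (2 * k * η)
            = ∑ r ∈ range n, ((if r = g - j0 i then k * (b - a) else 0) - 2 * k * η) := by
              rw [sum_sub_distrib, sum_ite_eq', if_pos (mem_range.2 (by omega))]; simp
          _ ≤ _ := by
            refine sum_le_sum fun r hr => ?_
            rw [map_smul, smul_eq_mul]
            exact hterm i hi'' r (mem_range.1 hr)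
  have hGS2 : (-1 : ℝ) ^ g * G S ≤ 2 * ‖S‖ := by
    have e1 : |(-1 : ℝ) ^ g * G S| = ‖G S‖ := by simp [abs_mul, abs_pow]
    have e2 := G.le_opNorm S
    have e3 := le_abs_self ((-1 : ℝ) ^ g * G S)
    nlinarith [norm_nonneg S]
  have hη2 : (n + 1) * (2 * η) = θ / 2 := by rw [hη]; field_simp; ring
  have e : t * k * θ / 2 ≤ t * (k * (b - a) - n * (2 * k * η)) := by
    have : θ / 2 ≤ (b - a) - n * (2 * η) := by linarith
    have h2 : (0 : ℝ) ≤ t * k := by positivity
    nlinarith [mul_le_mul_of_nonneg_left this h2]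
  linarith

/-- The unbounded case. -/
theorem config_of_unbounded {θ : ℝ} {n g k t : ℕ} {c : ℝ} (hc : 4 * g ≤ c)
    (hk : 0 < k) (ht : 0 < t) {u : ℝ}
    (hA : PatLe X θ n k u) (hB : ¬ PatLe X θ n (k * t) (c * (k * t))) :
    Config X n t g k u (c * (k * t) / 2) := by
  classical
  intro M
  unfold PatLe at hB
  push Not at hB
  obtain ⟨M₀, hM₀⟩ := hB
  set M₁ : ℕ := M₀ + (M * k + g * (k * t)) with hM₁
  obtain ⟨N, hN⟩ := ramsey_enum (n * (k * t)) M₁
  obtain ⟨x, f, α, hJ, hT⟩ := hA N
  obtain ⟨h, hh, hhN, col, hcol⟩ := hN (fun T => c * (k * t) < ‖pat x (k * t) T‖)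
  have hJ' := hJ.comp hh hhN
  have hT' := pat_comp_le hT hh hhN
  set x' := x ∘ h with hx'
  obtain ⟨T₀, hT₀, hT₀c, hT₀n⟩ := hM₀ x' _ _ (hJ'.mono (range_subset_range.2 (by omega)))
  have hT₀' : T₀ ⊆ range M₁ := hT₀.trans (range_subset_range.2 (by omega))
  have hbig : ∀ T ⊆ range M₁, T.card = n * (k * t) → c * (k * t) < ‖pat x' (k * t) T‖ := by
    intro T h1 h2
    have e1 := hcol T h1 h2
    have e2 := hcol T₀ hT₀' hT₀c
    rw [pat_image x _ hh] at e1 e2
    exact e1.2 (e2.1 hT₀n)
  have hkt : (0 : ℝ) < k * t := by positivity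
  have hgn : g ≤ n := by
    have e := norm_pat_le x' (k * t) T₀ (fun i hi => hJ'.1 i (hT₀' hi))
    rw [hT₀c] at e
    push_cast at e
    have : c < n := by nlinarith
    have h0 : (0 : ℝ) ≤ g := Nat.cast_nonneg _
    have : (g : ℝ) ≤ n := by linarith
    exact_mod_cast this
  set o := g * (k * t) with ho
  have hMM : ∀ p < M, p * k + o + k ≤ M₁ := by
    intro p hp
    have : (p + 1) * k ≤ M * k := Nat.mul_le_mul_right _ hp
    rw [add_mul] at this
    omega
  have hyb : ∀ p < M, ‖blk x' k k o p‖ ≤ k := fun p hp => norm_blk_le hJ'.1 (hMM p hp)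
  refine ⟨blk x' k k o, hyb, alt_blk_le le_rfl hT' (by omega), ?_⟩
  intro j0 P hj0 hPM hP1 hP2
  have hchain : ∀ i < t, ∀ r r', r ≤ r' → r' < n → P i r ≤ P i r' := by
    intro i hi r r' h1 h2
    rcases h1.lt_or_eq with h1 | rfl
    · exact (lt_of_chain (q := P i) (fun r hr => hP1 i hi i hi r (by omega) (r + 1) hr (by omega))
        r r' h1 h2).le
    · exact le_rfl
  set B : ℕ → Finset ℕ := fun p => Ico (p * k + o) (p * k + o + k) with hB
  set A : ℕ → Finset ℕ := fun j => if j < g then Ico (j * (k * t)) (j * (k * t) + k * t)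
    else (range t).biUnion fun i => B (P i (j - j0 i)) with hAdef
  have hdisj : ∀ j, g ≤ j → j < n →
      (↑(range t) : Set ℕ).PairwiseDisjoint fun i => B (P i (j - j0 i)) := by
    intro j h1 h2 i hi i' hi' hne
    have hi : i < t := by simpa using hi
    have hi' : i' < t := by simpa using hi'
    have := hP2 i hi i' hi' (j - j0 i) (by omega) (j - j0 i') (by omega) hne
      (by have := hj0 i hi; have := hj0 i' hi'; omega)
    rw [Function.onFun, disjoint_left]
    intro a ha ha'
    rcases lt_or_gt_of_ne this with h | h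
    · exact lt_irrefl _ (blk_lt le_rfl h ha ha')
    · exact lt_irrefl _ (blk_lt le_rfl h ha' ha)
  obtain ⟨e1, e2⟩ := pat_blocks x' (k := k * t) (n := n) A
    (fun j hj => by
      simp only [hAdef]
      split_ifs with h
      · simp
      · rw [card_biUnion (hdisj j (by omega) hj)]
        simp [hB, mul_comm])
    (fun j j' h1 h2 a ha b hb => by
      simp only [hAdef] at ha hb
      by_cases hj' : j' < g
      · rw [if_pos hj'] at hb
        rw [if_pos (by omega)] at ha
        have : (j + 1) * (k * t) ≤ j' * (k * t) := Nat.mul_le_mul_right _ h1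
        rw [add_mul] at this
        have := (mem_Ico.1 ha).2
        have := (mem_Ico.1 hb).1
        omega
      · rw [if_neg hj'] at hb
        obtain ⟨i', hi', hb⟩ := mem_biUnion.1 hb
        have hi' := mem_range.1 hi'
        by_cases hj : j < g
        · rw [if_pos hj] at ha
          have : (j + 1) * (k * t) ≤ g * (k * t) := Nat.mul_le_mul_right _ hj
          rw [add_mul] at this
          have := (mem_Ico.1 ha).2
          have := (mem_Ico.1 hb).1
          omega
        · rw [if_neg hj] at ha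
          obtain ⟨i, hi, ha⟩ := mem_biUnion.1 ha
          have hi := mem_range.1 hi
          have := hj0 i hi
          have := hj0 i' hi'
          refine blk_lt le_rfl ?_ ha hb
          refine (hchain i hi (j - j0 i) (j' - 1 - j0 i) (by omega) (by omega)).trans_lt ?_
          exact hP1 i hi i' hi' _ (by omega) _ (by omega) (by omega))
  have hsub : (range n).biUnion A ⊆ range M₁ := by
    intro a ha
    obtain ⟨j, hj, ha⟩ := mem_biUnion.1 ha
    have hj := mem_range.1 hj
    simp only [hAdef] at ha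
    split_ifs at ha with h
    · have : (j + 1) * (k * t) ≤ g * (k * t) := Nat.mul_le_mul_right _ h
      rw [add_mul] at this
      have := (mem_Ico.1 ha).2
      exact mem_range.2 (by omega)
    · obtain ⟨i, hi, ha⟩ := mem_biUnion.1 ha
      have := hMM _ (hPM i (mem_range.1 hi) (j - j0 i) (by omega))
      have := (mem_Ico.1 ha).2
      exact mem_range.2 (by omega)
  have hlow := hbig _ hsub e1
  rw [e2, ← sum_range_add_sum_Ico _ hgn] at hlow
  have e3 : ‖∑ j ∈ range g, (-1 : ℝ) ^ j • ∑ i ∈ A j, x' i‖ ≤ g * (k * t) := by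
    refine (norm_sum_le _ _).trans ?_
    calc _ ≤ ∑ _j ∈ range g, ((k : ℝ) * t) := by
          refine sum_le_sum fun j hj => ?_
          have hj := mem_range.1 hj
          rw [norm_smul, norm_pow, norm_neg, norm_one, one_pow, one_mul]
          simp only [hAdef, if_pos hj]
          have : (j + 1) * (k * t) ≤ g * (k * t) := Nat.mul_le_mul_right _ hj
          rw [add_mul] at this
          have := norm_blk_le (k := k * t) (s := k * t) (o := 0) (p := j) hJ'.1 (by omega)
          simpa [blk] using this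
      _ = _ := by simp
  set Al := ∑ i ∈ range t, ∑ j ∈ Ico g n, (-1 : ℝ) ^ j • blk x' k k o (P i (j - j0 i)) with hAl
  have e4 : ∑ j ∈ Ico g n, (-1 : ℝ) ^ j • ∑ i ∈ A j, x' i = Al := by
    rw [hAl, sum_comm]
    refine sum_congr rfl fun j hj => ?_
    have hj := mem_Ico.1 hj
    simp only [hAdef, if_neg (not_lt.2 hj.1)]
    rw [sum_biUnion (hdisj j hj.1 hj.2), smul_sum]
    rfl
  rw [e4] at hlow
  set S := ∑ i ∈ range t, ∑ r ∈ range n, (-1 : ℝ) ^ (j0 i + r) • blk x' k k o (P i r) with hS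
  have e5 : ‖S - Al‖ ≤ t * (g * k) := by
    rw [hS, hAl, ← sum_sub_distrib]
    refine (norm_sum_le _ _).trans ?_
    calc _ ≤ ∑ _i ∈ range t, ((g : ℝ) * k) := by
          refine sum_le_sum fun i hi => ?_
          have hi := mem_range.1 hi
          have hj := hj0 i hi
          have e6 : ∑ r ∈ range n, (-1 : ℝ) ^ (j0 i + r) • blk x' k k o (P i r) =
              ∑ j ∈ Ico (j0 i) (j0 i + n), (-1 : ℝ) ^ j • blk x' k k o (P i (j - j0 i)) := by
            rw [sum_Ico_eq_sum_range]
            simp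
          have hss : Ico g n ⊆ Ico (j0 i) (j0 i + n) := Ico_subset_Ico hj (by omega)
          rw [e6, ← sum_sdiff hss, add_sub_cancel_right]
          refine (norm_sum_le _ _).trans ?_
          calc _ ≤ ∑ _j ∈ Ico (j0 i) (j0 i + n) \ Ico g n, (k : ℝ) := by
                refine sum_le_sum fun j hj' => ?_
                have := mem_Ico.1 (mem_sdiff.1 hj').1
                rw [norm_smul, norm_pow, norm_neg, norm_one, one_pow, one_mul]
                exact hyb _ (hPM i hi _ (by omega))
            _ = _ := by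
              rw [sum_const, card_sdiff_of_subset hss, Nat.card_Ico, Nat.card_Ico, nsmul_eq_mul]
              congr 2
              omega
      _ = _ := by simp
  have e7 := norm_add_le (∑ j ∈ range g, (-1 : ℝ) ^ j • ∑ i ∈ A j, x' i) Al
  have e8 : ‖Al‖ ≤ ‖S‖ + ‖S - Al‖ := by
    have : Al = S - (S - Al) := by abel
    calc ‖Al‖ = ‖S - (S - Al)‖ := by rw [← this]
      _ ≤ _ := norm_sub_le _ _
  nlinarith

/-- Configurations with a linear gain exist in every space with James systems of all lengths. -/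
theorem exists_config {θ : ℝ} (hθ : 0 < θ)
    (hJ : ∀ N : ℕ, ∃ (x : ℕ → X) (f : ℕ → X →L[ℝ] ℝ) (α : ℕ → ℝ), JSys θ (range N) x f α) :
    ∃ c : ℝ, 0 < c ∧ ∀ t : ℕ, 0 < t → ∀ g : ℕ, ∃ (n : ℕ) (b u : ℝ), 0 < u ∧
      Config X n t g b u (c * t * u) := by
  classical
  by_cases hb : ∃ B : ℝ, 0 < B ∧ ∀ n : ℕ, ∃ k : ℕ, 0 < k ∧ PatLe X θ n k (B * k)
  · obtain ⟨B, hB, h⟩ := hb
    refine ⟨θ / (4 * B), by positivity, fun t ht g => ?_⟩
    obtain ⟨k, hk, hA⟩ := h (g + 1)
    refine ⟨g + 1, k, B * k, by positivity, ?_⟩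
    have := config_of_bounded hθ ht hA
    convert this using 1
    field_simp
  · push Not at hb
    refine ⟨1 / 4, by norm_num, fun t ht g => ?_⟩
    obtain ⟨n, hn⟩ := hb (4 * g + 1) (by positivity)
    have hex : ∃ j : ℕ, ∃ k : ℕ, 0 < k ∧ PatLe X θ n k (2 ^ j * (4 * g + 1) * k) := by
      refine ⟨n, 1, one_pos, fun M => ?_⟩
      obtain ⟨x, f, α, h⟩ := hJ M
      refine ⟨x, f, α, h, fun T hT hTc => (norm_pat_le x 1 T fun i hi => h.1 i (hT hi)).trans ?_⟩
      rw [hTc]
      have : (n : ℝ) ≤ 2 ^ n := by exact_mod_cast Nat.lt_two_pow_self.le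
      have h0 : (0 : ℝ) ≤ g := Nat.cast_nonneg _
      have h1 : (0 : ℝ) ≤ 2 ^ n := by positivity
      push_cast
      nlinarith
    obtain ⟨k, hk, hA⟩ := Nat.find_spec hex
    have hj0 : Nat.find hex ≠ 0 := by
      intro h0
      rw [h0] at hA
      exact hn k hk (by simpa using hA)
    obtain ⟨j, hj⟩ := Nat.exists_eq_succ_of_ne_zero hj0
    have hmin := Nat.find_min hex (m := j) (by omega)
    push Not at hmin
    have hB := hmin (k * t) (Nat.mul_pos hk ht)
    rw [hj] at hA
    push_cast at hB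
    have h2 : (1 : ℝ) ≤ 2 ^ j := one_le_pow₀ (by norm_num)
    have h0 : (0 : ℝ) ≤ g := Nat.cast_nonneg _
    have := config_of_unbounded (g := g) (c := 2 ^ j * (4 * g + 1)) (by nlinarith) hk ht hA hB
    refine ⟨n, k, 2 ^ j.succ * (4 * g + 1) * k, by positivity, ?_⟩
    convert this using 1
    rw [pow_succ]; ring

end Crest.Agent.R140
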