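import Mathlib
import Crest.Prelude.Def_MarkovType
import Crest.Agent.R140.Bellman

/-!
Uniformly convex renorming from bounded convex functions with midpoint gaps, and the existence
of James systems in spaces without an equivalent uniformly convex norm.
-/

set_option autoImplicit false

namespace Crest.Agent.R140

open Finset Crest.AnalysisR

variable {X : Type*} [NormedAddCommGroup X] [NormedSpace ℝ X]

theorem norm_combo_le {a : ℝ} {y z : X} (h0 : 0 ≤ a) (h1 : a ≤ 1) {r : ℝ} (hy : ‖y‖ ≤ r)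
    (hz : ‖z‖ ≤ r) : ‖a • y + (1 - a) • z‖ ≤ r := by
  have h1' : 0 ≤ 1 - a := sub_nonneg.2 h1
  refine (norm_add_le _ _).trans ?_
  rw [norm_smul, norm_smul, Real.norm_eq_abs, Real.norm_eq_abs, abs_of_nonneg h0,
    abs_of_nonneg h1']
  nlinarith

theorem renorm_of_fun (G : X → ℝ) (hG0 : ∀ x, ‖x‖ ≤ 1 → 0 ≤ G x ∧ G x ≤ 1 / 4)
    (hGe : ∀ x, G (-x) = G x)
    (hGc : ∀ (a : ℝ) (y z : X), 0 ≤ a → a ≤ 1 → ‖y‖ ≤ 1 → ‖z‖ ≤ 1 →
        G (a • y + (1 - a) • z) ≤ a * G y + (1 - a) * G z)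
    (hGg : ∀ ε : ℝ, 0 < ε → ∃ δ : ℝ, 0 < δ ∧ ∀ y z : X, ‖y‖ ≤ 1 → ‖z‖ ≤ 1 → ε ≤ ‖y - z‖ →
        G ((1 / 2 : ℝ) • (y + z)) ≤ (G y + G z) / 2 - δ) :
    HasEquivUniformlyConvexNorm X := by
  set D : Set X := {x | ‖x‖ ≤ 1 ∧ ‖x‖ + G x ≤ 1 / 2} with hD
  have hFc : ∀ (a : ℝ) (y z : X), 0 ≤ a → a ≤ 1 → ‖y‖ ≤ 1 → ‖z‖ ≤ 1 →
      ‖a • y + (1 - a) • z‖ + G (a • y + (1 - a) • z) ≤
        a * (‖y‖ + G y) + (1 - a) * (‖z‖ + G z) := by
    intro a y z h0 h1 hy hz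
    have h1' : 0 ≤ 1 - a := sub_nonneg.2 h1
    have e1 := hGc a y z h0 h1 hy hz
    have e2 := norm_add_le (a • y) ((1 - a) • z)
    rw [norm_smul, norm_smul, Real.norm_eq_abs, Real.norm_eq_abs, abs_of_nonneg h0,
      abs_of_nonneg h1'] at e2
    linarith
  have hDc : Convex ℝ D := by
    intro y hy z hz a b ha hb hab
    obtain rfl : b = 1 - a := by linarith
    refine ⟨norm_combo_le ha (by linarith) hy.1 hz.1, ?_⟩
    have := hFc a y z ha (by linarith) hy.1 hz.1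
    nlinarith [mul_le_mul_of_nonneg_left hy.2 ha, mul_le_mul_of_nonneg_left hz.2 hb]
  have hDsub : D ⊆ Metric.closedBall 0 (1 / 2) := by
    intro x hx
    rw [mem_closedBall_zero_iff]
    linarith [hx.2, (hG0 x hx.1).1]
  have hDsup : Metric.ball 0 (1 / 4) ⊆ D := by
    intro x hx
    rw [mem_ball_zero_iff] at hx
    have : ‖x‖ ≤ 1 := by linarith
    exact ⟨this, by linarith [(hG0 x this).2]⟩
  have hD0 : (0 : X) ∈ D := hDsup (Metric.mem_ball_self (by norm_num))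
  have hDa : Absorbent ℝ D := (absorbent_ball_zero (by norm_num : (0 : ℝ) < 1 / 4)).mono hDsup
  have hDn : ∀ x ∈ D, -x ∈ D := by
    intro x hx
    refine ⟨by simpa using hx.1, ?_⟩
    rw [norm_neg, hGe]; exact hx.2
  have hDb : Balanced ℝ D := by
    rw [balanced_iff_smul_mem]
    intro a ha x hx
    rw [Real.norm_eq_abs, abs_le] at ha
    have := hDc hx (hDn x hx) (a := (1 + a) / 2) (b := (1 - a) / 2) (by linarith) (by linarith)
      (by ring)
    have e : ((1 + a) / 2) • x + ((1 - a) / 2) • (-x) = a • x := by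
      rw [smul_neg, ← sub_eq_add_neg, ← sub_smul]; congr 1; ring
    rwa [e] at this
  have hlow : ∀ x : X, 2 * ‖x‖ ≤ gauge D x := by
    intro x
    have := le_gauge_of_subset_closedBall (x := x) hDa (by norm_num : (0 : ℝ) ≤ 1 / 2) hDsub
    linarith
  have hup : ∀ x : X, gauge D x ≤ 4 * ‖x‖ := by
    intro x
    have := mul_gauge_le_norm (x := x) hDsup
    linarith
  refine ⟨gaugeSeminorm hDb hDc hDa, 2, 4, by norm_num, by norm_num, fun x => ⟨hlow x, hup x⟩, ?_⟩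
  intro ε hε _
  obtain ⟨δ, hδ, hgap⟩ := hGg (ε / 8) (by linarith)
  set η : ℝ := min (1 / 2) (4 * δ / 5) with hη
  have hη0 : 0 < η := lt_min (by norm_num) (by linarith)
  have hη1 : η ≤ 1 / 2 := min_le_left _ _
  have hη2 : η ≤ 4 * δ / 5 := min_le_right _ _
  refine ⟨1 - 1 / (1 + η / 2), ?_, ?_⟩
  · have : 1 / (1 + η / 2) < 1 := by rw [div_lt_one (by linarith)]; linarith
    linarith
  intro x y hx hy hxy
  change gauge D x ≤ 1 at hx
  change gauge D y ≤ 1 at hy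
  change ε ≤ gauge D (x - y) at hxy
  change gauge D _ ≤ _
  set s : ℝ := (1 + η / 2) / (1 + η) with hs
  have hs1 : s < 1 := by rw [hs, div_lt_one (by linarith)]; linarith
  have hs2 : 1 / 2 ≤ s := by rw [hs, le_div_iff₀ (by linarith)]; linarith
  have hs0 : 0 ≤ s := by linarith
  have hmem : ∀ w : X, gauge D w ≤ 1 → s • w ∈ D := by
    intro w hw
    apply setOfPred_gauge_lt_one_subset_self hDc hD0 hDa
    change gauge D (s • w) < 1
    rw [gauge_smul_of_nonneg hs0, smul_eq_mul]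
    nlinarith [gauge_nonneg (s := D) w]
  have hsx := hmem x hx
  have hsy := hmem y hy
  have hdist : ε / 8 ≤ ‖s • x - s • y‖ := by
    rw [← smul_sub, norm_smul, Real.norm_eq_abs, abs_of_nonneg hs0]
    have := hup (x - y)
    nlinarith [norm_nonneg (x - y)]
  have e1 := hgap _ _ hsx.1 hsy.1 hdist
  set m : X := (1 / 2 : ℝ) • (s • x + s • y) with hm
  have hmn : ‖m‖ ≤ (‖s • x‖ + ‖s • y‖) / 2 := by
    rw [hm, norm_smul, Real.norm_eq_abs, abs_of_pos (by norm_num : (0 : ℝ) < 1 / 2)]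
    linarith [norm_add_le (s • x) (s • y)]
  have hx2 := mem_closedBall_zero_iff.1 (hDsub hsx)
  have hy2 := mem_closedBall_zero_iff.1 (hDsub hsy)
  have hm2 : ‖m‖ ≤ 1 / 2 := by linarith
  have hFm : ‖m‖ + G m ≤ 1 / 2 - δ := by linarith [hsx.2, hsy.2]
  have h2m : ‖(2 : ℝ) • m‖ ≤ 1 := by
    rw [norm_smul, Real.norm_eq_abs, abs_of_pos (by norm_num : (0 : ℝ) < 2)]; linarith
  have e2 := hFc η ((2 : ℝ) • m) m hη0.le (by linarith) h2m (by linarith)
  have e3 : η • (2 : ℝ) • m + (1 - η) • m = (1 + η) • m := by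
    rw [smul_smul, ← add_smul]; congr 1; ring
  have hin : (1 + η) • m ∈ D := by
    rw [← e3]
    refine ⟨norm_combo_le hη0.le (by linarith) h2m (by linarith), ?_⟩
    have := (hG0 _ h2m).2
    have := (hG0 m (by linarith)).1
    nlinarith [norm_nonneg m]
  have e4 : (1 + η) • m = (1 + η / 2) • (1 / 2 : ℝ) • (x + y) := by
    rw [hm, ← smul_add, smul_smul, smul_smul, smul_smul]
    congr 1
    rw [hs]; field_simp
  have e5 := gauge_le_one_of_mem hin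
  rw [e4, gauge_smul_of_nonneg (by linarith : 0 ≤ 1 + η / 2), smul_eq_mul] at e5
  have : gauge D ((1 / 2 : ℝ) • (x + y)) ≤ 1 / (1 + η / 2) := by
    rw [le_div_iff₀ (by linarith)]; linarith
  linarith

theorem renorm_of_funs (φ : ℕ → X → ℝ) (h0 : ∀ k x, ‖x‖ ≤ 1 → 0 ≤ φ k x ∧ φ k x ≤ 1)
    (hc : ∀ k (a : ℝ) (y z : X), 0 ≤ a → a ≤ 1 → ‖y‖ ≤ 1 → ‖z‖ ≤ 1 →
        φ k (a • y + (1 - a) • z) ≤ a * φ k y + (1 - a) * φ k z)
    (hg : ∀ k : ℕ, ∃ δ : ℝ, 0 < δ ∧ ∀ y z : X, ‖y‖ ≤ 1 → ‖z‖ ≤ 1 → 1 / ((k : ℝ) + 1) ≤ ‖y - z‖ →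
        φ k ((1 / 2 : ℝ) • (y + z)) ≤ (φ k y + φ k z) / 2 - δ) :
    HasEquivUniformlyConvexNorm X := by
  set ψ : ℕ → X → ℝ := fun k x => (1 / 2 : ℝ) ^ k * ((φ k x + φ k (-x)) / 16) with hψ
  have hψ0 : ∀ k x, ‖x‖ ≤ 1 → 0 ≤ ψ k x := by
    intro k x hx
    have := (h0 k x hx).1
    have := (h0 k (-x) (by simpa using hx)).1
    positivity
  have hψ1 : ∀ k x, ‖x‖ ≤ 1 → ψ k x ≤ (1 / 2 : ℝ) ^ k * (1 / 8) := by
    intro k x hx
    have := (h0 k x hx).2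
    have := (h0 k (-x) (by simpa using hx)).2
    exact mul_le_mul_of_nonneg_left (by linarith) (by positivity)
  have hsum0 : Summable fun k : ℕ => (1 / 2 : ℝ) ^ k * (1 / 8) :=
    summable_geometric_two.mul_right _
  have hsum : ∀ x, ‖x‖ ≤ 1 → Summable fun k => ψ k x := fun x hx =>
    Summable.of_nonneg_of_le (fun k => hψ0 k x hx) (fun k => hψ1 k x hx) hsum0
  have hψc : ∀ k (a : ℝ) (y z : X), 0 ≤ a → a ≤ 1 → ‖y‖ ≤ 1 → ‖z‖ ≤ 1 →
      ψ k (a • y + (1 - a) • z) ≤ a * ψ k y + (1 - a) * ψ k z := by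
    intro k a y z ha0 ha1 hy hz
    have e1 := hc k a y z ha0 ha1 hy hz
    have e2 := hc k a (-y) (-z) ha0 ha1 (by simpa using hy) (by simpa using hz)
    have e3 : a • (-y) + (1 - a) • (-z) = -(a • y + (1 - a) • z) := by
      simp only [smul_neg]; abel
    rw [e3] at e2
    have : a * ψ k y + (1 - a) * ψ k z = (1 / 2 : ℝ) ^ k *
        ((a * φ k y + (1 - a) * φ k z + (a * φ k (-y) + (1 - a) * φ k (-z))) / 16) := by
      simp only [hψ]; ring
    rw [this]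
    exact mul_le_mul_of_nonneg_left (by linarith) (by positivity)
  have hmid : ∀ y z : X, (1 / 2 : ℝ) • y + (1 - 1 / 2 : ℝ) • z = (1 / 2 : ℝ) • (y + z) := by
    intro y z; rw [smul_add]; norm_num
  refine renorm_of_fun (fun x => ∑' k, ψ k x) ?_ ?_ ?_ ?_
  · intro x hx
    refine ⟨tsum_nonneg fun k => hψ0 k x hx, ?_⟩
    calc _ ≤ ∑' k : ℕ, (1 / 2 : ℝ) ^ k * (1 / 8) :=
          (hsum x hx).tsum_le_tsum (fun k => hψ1 k x hx) hsum0
      _ = 1 / 4 := by rw [tsum_mul_right, tsum_geometric_two]; norm_num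
  · intro x
    simp only [hψ, neg_neg, add_comm]
  · intro a y z ha0 ha1 hy hz
    rw [← tsum_mul_left, ← tsum_mul_left,
      ← ((hsum y hy).mul_left a).tsum_add ((hsum z hz).mul_left _)]
    exact (hsum _ (norm_combo_le ha0 ha1 hy hz)).tsum_le_tsum
      (fun k => hψc k a y z ha0 ha1 hy hz) (((hsum y hy).mul_left a).add ((hsum z hz).mul_left _))
  · intro ε hε
    obtain ⟨k, hk⟩ := exists_nat_one_div_lt hε
    obtain ⟨δ, hδ, hgap⟩ := hg k
    refine ⟨(1 / 2 : ℝ) ^ k * (δ / 16), by positivity, ?_⟩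
    intro y z hy hz hyz
    have hm : ‖(1 / 2 : ℝ) • (y + z)‖ ≤ 1 := by
      rw [← hmid]; exact norm_combo_le (by norm_num) (by norm_num) hy hz
    set d : ℕ → ℝ := fun j => (ψ j y + ψ j z) / 2 - ψ j ((1 / 2 : ℝ) • (y + z)) with hd
    have hd0 : ∀ j, 0 ≤ d j := by
      intro j
      have := hψc j (1 / 2) y z (by norm_num) (by norm_num) hy hz
      rw [hmid] at this
      simp only [hd]; linarith
    have hds : HasSum d (((∑' j, ψ j y) + ∑' j, ψ j z) / 2 - ∑' j, ψ j ((1 / 2 : ℝ) • (y + z))) :=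
      (((hsum y hy).hasSum.add (hsum z hz).hasSum).div_const 2).sub (hsum _ hm).hasSum
    have e1 : d k ≤ _ := le_hasSum hds k fun j _ => hd0 j
    have e2 : (1 / 2 : ℝ) ^ k * (δ / 16) ≤ d k := by
      have g1 := hgap y z hy hz (by linarith)
      have g2 := hc k (1 / 2) (-y) (-z) (by norm_num) (by norm_num) (by simpa using hy)
        (by simpa using hz)
      rw [hmid] at g2
      have e3 : (1 / 2 : ℝ) • (-y + -z) = -((1 / 2 : ℝ) • (y + z)) := by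
        rw [← smul_neg, neg_add]
      rw [e3] at g2
      have : d k = (1 / 2 : ℝ) ^ k * (((φ k y + φ k z) / 2 - φ k ((1 / 2 : ℝ) • (y + z)) +
          ((φ k (-y) + φ k (-z)) / 2 - φ k (-((1 / 2 : ℝ) • (y + z))))) / 16) := by
        simp only [hd, hψ]; ring
      rw [this]
      exact mul_le_mul_of_nonneg_left (by linarith) (by positivity)
    linarith

/-- A space without an equivalent uniformly convex norm has James systems of all lengths. -/
theorem exists_JSys (h : ¬ HasEquivUniformlyConvexNorm X) :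
    ∃ θ : ℝ, 0 < θ ∧ ∀ N : ℕ, ∃ (x : ℕ → X) (f : ℕ → X →L[ℝ] ℝ) (α : ℕ → ℝ),
      JSys θ (range N) x f α := by
  by_contra hne
  push Not at hne
  apply h
  have key : ∀ k : ℕ, ∃ φ : X → ℝ, (∀ x, ‖x‖ ≤ 1 → 0 ≤ φ x ∧ φ x ≤ 1) ∧
      (∀ (a : ℝ) (y z : X), 0 ≤ a → a ≤ 1 → ‖y‖ ≤ 1 → ‖z‖ ≤ 1 →
        φ (a • y + (1 - a) • z) ≤ a * φ y + (1 - a) * φ z) ∧
      ∃ δ : ℝ, 0 < δ ∧ ∀ y z : X, ‖y‖ ≤ 1 → ‖z‖ ≤ 1 → 1 / ((k : ℝ) + 1) ≤ ‖y - z‖ →
        φ ((1 / 2 : ℝ) • (y + z)) ≤ (φ y + φ z) / 2 - δ := by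
    intro k
    obtain ⟨N, hN⟩ := hne (1 / ((k : ℝ) + 1) / 17) (by positivity)
    obtain ⟨φ, h1, h2, δ, hδ, h3⟩ := exists_gap_fun (by positivity) hN
    refine ⟨φ, h1, h2, δ, hδ, fun y z hy hz hyz => h3 y z hy hz ?_⟩
    linarith
  choose φ h1 h2 h3 using key
  exact renorm_of_funs φ h1 h2 h3

end Crest.Agent.R140
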