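import Mathlib
import Crest.Agent.R140.Renorm
import Crest.Agent.R140.Config
import Crest.Agent.R140.Align

/-!
Markov type and configurations give an inequality which fails for long walks.
-/

set_option autoImplicit false

namespace Crest.Agent.R140

open Finset Crest.AnalysisR

variable {X : Type*} [NormedAddCommGroup X] [NormedSpace ℝ X]

theorem config_bound {p K : ℝ} (hp : 0 < p) (hK : 0 < K) (hX : HasMarkovType X p K) {n t : ℕ}
    (ht : 1 ≤ t) {b u l : ℝ} (hu : 0 < u) (hl : 0 ≤ l) (hC : Config X n t (4 * t) b u l) :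
    l ^ p ≤ 16 * (K ^ p * t * u ^ p) := by
  classical
  set D := t + 1 with hDdef
  have hD : 2 ≤ D := by omega
  have : NeZero (2 * D) := ⟨by omega⟩
  set g := 4 * t with hg
  have hup : 0 < u ^ p := Real.rpow_pos_of_pos hu p
  set A : ℝ := (n * |b|) ^ p with hA
  have hA0 : 0 ≤ A := by positivity
  set δ : ℝ := min (1 / (4 * (t + 1))) (u ^ p / (2 * (A + 1))) with hδ
  have hδ0 : 0 < δ := lt_min (by positivity) (by positivity)
  obtain ⟨V, _, _, T, pos, M, B, hT, hM, hB, hW, hTu⟩ :=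
    model_exists hD (2 * D + (2 * g + n) * D) δ hδ0
  obtain ⟨ρ, β, hρ1, hρ2, hρ3, hρ4⟩ := exists_rho (D := D) (by omega)
  obtain ⟨y, hy1, hy2, hy3⟩ := hC M
  have hTinj : ∀ ℓ, Function.Injective (T ℓ) := fun ℓ a b h => by
    rw [← hT ℓ a, h, hT]
  set F : V → ZMod (2 * D) → X := fun z ℓ => ∑ r ∈ range n, (-1 : ℝ) ^ (β ℓ + r) •
    y (pos (if Even (β ℓ + r) then z else T ℓ z) (ρ ℓ + (g + r) * D)) with hF
  have hang : ∀ ℓ, ∀ s, s < 2 * g + n → D ≤ ρ ℓ + s * D ∧ ρ ℓ + s * D < 2 * D + (2 * g + n) * D := by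
    intro ℓ s hs
    have := hρ1 ℓ
    have : s * D ≤ (2 * g + n) * D := Nat.mul_le_mul_right _ hs.le
    omega
  have hge : ((g : ℕ) : ZMod (2 * D)) * D = 0 := cast_mul_D_even ⟨2 * t, by omega⟩
  have hFa : ∀ z ℓ, F (T ℓ z) (ℓ + D) = -F z ℓ := by
    intro z ℓ
    simp only [hF, hρ3, hT, ← sum_neg_distrib]
    refine sum_congr rfl fun r _ => ?_
    have h4 := hρ4 ℓ
    by_cases he : Even (β ℓ + r)
    · have he' : ¬ Even (β (ℓ + D) + r) := by rw [Nat.even_iff] at he ⊢; omega
      rw [if_pos he, if_neg he', he.neg_one_pow, (Nat.not_even_iff_odd.1 he').neg_one_pow, neg_smul]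
    · have he' : Even (β (ℓ + D) + r) := by rw [Nat.even_iff] at he ⊢; omega
      rw [if_pos he', if_neg he, he'.neg_one_pow, (Nat.not_even_iff_odd.1 he).neg_one_pow, neg_smul,
        neg_neg]
  have hFb : ∀ z ℓ, ‖F z ℓ‖ ≤ n * |b| := by
    intro z ℓ
    refine (norm_sum_le _ _).trans ?_
    calc _ ≤ ∑ _r ∈ range n, |b| := by
          refine sum_le_sum fun r hr => ?_
          have hr := mem_range.1 hr
          rw [norm_smul, norm_pow, norm_neg, norm_one, one_pow, one_mul]
          exact (hy1 _ (hM _ _ (hang ℓ (g + r) (by omega)).2)).trans (le_abs_self b)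
      _ = _ := by simp
  have hFu : ∀ z ℓ, z ∉ B → T ℓ z ∉ B → ‖F z ℓ‖ ≤ u := by
    intro z ℓ hz hz'
    have e := hy2 (fun r => pos (if Even (β ℓ + r) then z else T ℓ z) (ρ ℓ + (g + r) * D))
      (fun r hr => hM _ _ (hang ℓ (g + r) (by omega)).2) (fun r hr => by
        have e1 : ρ ℓ + (g + (r + 1)) * D = ρ ℓ + (g + r) * D + D := by ring
        rw [e1, ← add_assoc (β ℓ)]
        refine edge_lt hT hW hTu hz hz' (by omega) ?_ (hang ℓ (g + r) (by omega)).1 ?_
        · push_cast
          rw [hρ2]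
          linear_combination hge
        · rw [← e1]; exact (hang ℓ (g + (r + 1)) (by omega)).2)
    have e2 : F z ℓ = (-1 : ℝ) ^ β ℓ • ∑ r ∈ range n, (-1 : ℝ) ^ r •
        y (pos (if Even (β ℓ + r) then z else T ℓ z) (ρ ℓ + (g + r) * D)) := by
      simp only [hF, smul_sum, smul_smul, pow_add]
    rw [e2, norm_smul, norm_pow, norm_neg, norm_one, one_pow, one_mul]
    exact e
  have hgood : ∀ z w, (∀ i ≤ t, vtx T z w i ∉ B) → (∀ i, i + 1 < t → w (i + 1) ≠ w i + D) →
      l ≤ ‖∑ i ∈ range t, F (vtx T z w i) (w i)‖ := by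
    intro z w h1 h2
    obtain ⟨j0, hj1, hj2⟩ := exists_j0 (by omega) hρ1 hρ2 hρ4 t w h2
    obtain ⟨k1, k2⟩ := align (t := t) (J := g + n) (by omega) hT hW hTu (vtx T z w) w
      (fun i j => ρ (w i) + (g + j - j0 i) * D) (fun i => rfl) h1
      (fun i hi j hj => hang _ _ (by omega))
      (fun i hi j hj => by
        obtain ⟨c1, c2⟩ := hj1 i hi
        obtain ⟨q, hq⟩ : ∃ q, g + j - j0 i + β (w i) = j + 2 * q := ⟨(g - j0 i + β (w i)) / 2, by omega⟩
        have e1 : ((g + j - j0 i : ℕ) : ZMod (2 * D)) + β (w i) = j + 2 * q := by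
          exact_mod_cast congrArg (Nat.cast : ℕ → ZMod (2 * D)) hq
        have e2 : ((2 * q : ℕ) : ZMod (2 * D)) * D = 0 := cast_mul_D_even ⟨q, by omega⟩
        rw [Nat.cast_add, Nat.cast_mul, hρ2]
        push_cast at e2
        linear_combination (D : ZMod (2 * D)) * e1 + e2)
      (fun i hi j => by
        have := (hj1 i hi).1
        have e : g + (j + 1) - j0 i = g + j - j0 i + 1 := by omega
        rw [e]; ring)
      (fun i hi j hj => hj2 i hi _ _ (by
        have := (hj1 i (by omega)).1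
        have := (hj1 (i + 1) hi).1
        omega))
    have e := hy3 j0 (fun i r => pos (if Even (j0 i + r) then vtx T z w i else vtx T z w (i + 1))
        (ρ (w i) + (g + (j0 i + r) - j0 i) * D)) (fun i hi => (hj1 i hi).1)
      (fun i hi r hr => hM _ _ (hang _ _ (by omega)).2)
      (fun i hi i' hi' r hr r' hr' h => by
        have := k1 i hi i' hi' (j0 i + r) (by have := (hj1 i' hi').1; omega)
        rw [← h]
        exact this)
      (fun i hi i' hi' r hr r' hr' hne h => by
        have := k2 i hi i' hi' (j0 i + r) (by have := (hj1 i hi).1; omega) hne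
        rw [← h]
        exact this)
    refine e.trans (le_of_eq ?_)
    congr 1
    refine sum_congr rfl fun i hi => sum_congr rfl fun r _ => ?_
    have c2 := (hj1 i (mem_range.1 hi)).2
    have e1 : g + (j0 i + r) - j0 i = g + r := by omega
    have e2 : Even (j0 i + r) ↔ Even (β (w i) + r) := by
      rw [Nat.even_iff, Nat.even_iff]; omega
    have e3 : (-1 : ℝ) ^ (j0 i + r) = (-1 : ℝ) ^ (β (w i) + r) := by
      by_cases he : Even (j0 i + r)
      · rw [he.neg_one_pow, (e2.1 he).neg_one_pow]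
      · rw [(Nat.not_even_iff_odd.1 he).neg_one_pow,
          (Nat.not_even_iff_odd.1 (fun h => he (e2.2 h))).neg_one_pow]
    simp only [e1, e2, e3]
    rfl
  have key := markov_cocycle hp hK hX (fun ℓ : ZMod (2 * D) => ℓ + D) (add_D_add_D D) T hT F hFa ht
  set v : ℝ := (Fintype.card V : ℝ) with hv
  have hv0 : 0 < v := by rw [hv]; exact_mod_cast Fintype.card_pos
  have hcΛ : (Fintype.card (ZMod (2 * D)) : ℝ) = 2 * (t + 1) := by
    rw [ZMod.card, hDdef]; push_cast; ring
  have hlp : 0 ≤ l ^ p := by positivity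
  -- lower bound
  set Nb : V → (ℕ → ZMod (2 * D)) → ℝ := fun z w =>
    ∑ i ∈ range (t + 1), (if vtx T z w i ∈ B then (1 : ℝ) else 0) +
      ∑ i ∈ range (t - 1), (if w (i + 1) = w i + D then (1 : ℝ) else 0) with hNb
  have hpt : ∀ z w, l ^ p + (-l ^ p) * Nb z w ≤ ‖∑ i ∈ range t, F (vtx T z w i) (w i)‖ ^ p := by
    intro z w
    have n1 : 0 ≤ ∑ i ∈ range (t + 1), (if vtx T z w i ∈ B then (1 : ℝ) else 0) :=
      sum_nonneg fun i _ => by split_ifs <;> norm_num
    have n2 : 0 ≤ ∑ i ∈ range (t - 1), (if w (i + 1) = w i + D then (1 : ℝ) else 0) :=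
      sum_nonneg fun i _ => by split_ifs <;> norm_num
    have n3 : 0 ≤ ‖∑ i ∈ range t, F (vtx T z w i) (w i)‖ ^ p := by positivity
    by_cases h1 : ∀ i ≤ t, vtx T z w i ∉ B
    · by_cases h2 : ∀ i, i + 1 < t → w (i + 1) ≠ w i + D
      · have := Real.rpow_le_rpow hl (hgood z w h1 h2) hp.le
        have : 0 ≤ l ^ p * Nb z w := mul_nonneg hlp (add_nonneg n1 n2)
        linarith
      · push Not at h2
        obtain ⟨i, hi, h2⟩ := h2
        have : (1 : ℝ) ≤ ∑ i ∈ range (t - 1), (if w (i + 1) = w i + D then (1 : ℝ) else 0) := by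
          have := single_le_sum (f := fun i => if w (i + 1) = w i + D then (1 : ℝ) else 0)
            (fun i _ => by split_ifs <;> norm_num) (mem_range.2 (show i < t - 1 by omega))
          rwa [if_pos h2] at this
        have : 1 ≤ Nb z w := by simp only [hNb]; linarith
        nlinarith
    · push Not at h1
      obtain ⟨i, hi, h1⟩ := h1
      have : (1 : ℝ) ≤ ∑ i ∈ range (t + 1), (if vtx T z w i ∈ B then (1 : ℝ) else 0) := by
        have := single_le_sum (f := fun i => if vtx T z w i ∈ B then (1 : ℝ) else 0)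
          (fun i _ => by split_ifs <;> norm_num) (mem_range.2 (show i < t + 1 by omega))
        rwa [if_pos h1] at this
      have : 1 ≤ Nb z w := by simp only [hNb]; linarith
      nlinarith
  have hδ1 : δ ≤ 1 / (4 * (t + 1)) := min_le_left _ _
  have hδ2 : δ ≤ u ^ p / (2 * (A + 1)) := min_le_right _ _
  have hNsum : ∑ z, avgW t (Nb z) ≤ 3 / 4 * v := by
    rw [← avgW_sum]
    have e : (fun w => ∑ z, Nb z w) = fun w : ℕ → ZMod (2 * D) => ((t : ℝ) + 1) * B.card +
        v * ∑ i ∈ range (t - 1), (if w (i + 1) = w i + D then (1 : ℝ) else 0) := by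
      funext w
      simp only [hNb, sum_add_distrib]
      rw [sum_comm, sum_congr rfl fun i _ => sum_ind_mem B (vtx_injective T hTinj w i)]
      simp [hv]
    rw [e, avgW_add, avgW_const, avgW_mul, avgW_sum,
      sum_congr rfl fun i hi => avgW_back (fun ℓ : ZMod (2 * D) => ℓ + D) i t
        (by have := mem_range.1 hi; omega), hcΛ, sum_const, card_range, nsmul_eq_mul]
    have e1 : ((t - 1 : ℕ) : ℝ) * (1 / (2 * (t + 1))) ≤ 1 / 2 := by
      rw [mul_one_div, div_le_div_iff₀ (by positivity) (by norm_num)]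
      have : ((t - 1 : ℕ) : ℝ) ≤ t := by exact_mod_cast Nat.sub_le t 1
      linarith
    have e2 : (t + 1) * δ ≤ 1 / 4 := by
      rw [le_div_iff₀ (by positivity)] at hδ1
      linarith
    have e3 : (t + 1 : ℝ) * B.card ≤ (t + 1) * (δ * v) :=
      mul_le_mul_of_nonneg_left hB (by positivity)
    nlinarith
  have hlow : l ^ p * v / 4 ≤
      ∑ z, avgW t (fun w => ‖∑ i ∈ range t, F (vtx T z w i) (w i)‖ ^ p) := by
    calc l ^ p * v / 4 ≤ l ^ p * v + (-l ^ p) * ∑ z, avgW t (Nb z) := by nlinarith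
      _ = ∑ z, avgW t (fun w => l ^ p + (-l ^ p) * Nb z w) := by
        simp only [avgW_add, avgW_const, avgW_mul, sum_add_distrib, ← mul_sum, sum_const,
          card_univ, nsmul_eq_mul]
        rw [hv]; ring
      _ ≤ _ := sum_le_sum fun z _ => avgW_mono t (hpt z)
  -- upper bound
  have hpt2 : ∀ z ℓ, ‖F z ℓ‖ ^ p ≤ u ^ p + (A * (if z ∈ B then (1 : ℝ) else 0) +
      A * (if T ℓ z ∈ B then (1 : ℝ) else 0)) := by
    intro z ℓ
    have e := Real.rpow_le_rpow (norm_nonneg _) (hFb z ℓ) hp.le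
    by_cases h1 : z ∈ B
    · rw [if_pos h1]; split_ifs <;> linarith
    · by_cases h2 : T ℓ z ∈ B
      · rw [if_pos h2, if_neg h1]; linarith
      · rw [if_neg h2, if_neg h1]
        have := Real.rpow_le_rpow (norm_nonneg _) (hFu z ℓ h1 h2) hp.le
        linarith
  have hupp : ∑ z, (∑ ℓ, ‖F z ℓ‖ ^ p) / Fintype.card (ZMod (2 * D)) ≤ 2 * u ^ p * v := by
    have hc : (0 : ℝ) < Fintype.card (ZMod (2 * D)) := card_pos'
    rw [← sum_div, sum_comm, div_le_iff₀ hc]
    calc _ ≤ ∑ _ℓ : ZMod (2 * D), 2 * u ^ p * v := by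
          refine sum_le_sum fun ℓ _ => (sum_le_sum fun z _ => hpt2 z ℓ).trans ?_
          simp only [sum_add_distrib, ← mul_sum]
          rw [sum_ind_mem B (hTinj ℓ), sum_ind_mem B (e := fun z => z) (fun _ _ h => h), sum_const,
            card_univ, nsmul_eq_mul, ← hv]
          rw [le_div_iff₀ (by positivity)] at hδ2
          have e1 : A * B.card ≤ A * (δ * v) := mul_le_mul_of_nonneg_left hB hA0
          have e2 : δ * (2 * A) * v ≤ u ^ p * v :=
            mul_le_mul_of_nonneg_right (by nlinarith) hv0.le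
          nlinarith
      _ = _ := by rw [sum_const, card_univ, nsmul_eq_mul]; ring
  have hKt : 0 ≤ K ^ p * t := by positivity
  have fin : l ^ p * v / 4 ≤ 2 * (K ^ p * t * (2 * u ^ p * v)) :=
    (hlow.trans key).trans (by nlinarith [mul_le_mul_of_nonneg_left hupp hKt])
  have : l ^ p * v ≤ 16 * (K ^ p * t * u ^ p) * v := by linarith
  exact le_of_mul_le_mul_right this hv0

theorem main {p K : ℝ} (hp : 1 < p) (hK : 0 < K) (hX : HasMarkovType X p K) :
    HasEquivUniformlyConvexNorm X := by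
  by_contra h
  obtain ⟨θ, hθ, hJ⟩ := exists_JSys h
  obtain ⟨c, hc, hcfg⟩ := exists_config hθ hJ
  have hcp : 0 < c ^ p := Real.rpow_pos_of_pos hc p
  have hlim : Filter.Tendsto (fun t : ℕ => (t : ℝ) ^ (p - 1)) Filter.atTop Filter.atTop :=
    (tendsto_rpow_atTop (by linarith)).comp tendsto_natCast_atTop_atTop
  obtain ⟨t, ht1, ht2⟩ := ((hlim.eventually_gt_atTop (16 * K ^ p / c ^ p)).and
    (Filter.eventually_ge_atTop 1)).exists
  obtain ⟨n, b, u, hu, hC⟩ := hcfg t ht2 (4 * t)
  have ht0 : (0 : ℝ) < t := by exact_mod_cast ht2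
  have e := config_bound (by linarith) hK hX ht2 hu (by positivity) hC
  rw [Real.mul_rpow (by positivity) hu.le, Real.mul_rpow hc.le ht0.le] at e
  have hup : 0 < u ^ p := Real.rpow_pos_of_pos hu p
  have e2 : (t : ℝ) ^ p = t ^ (p - 1) * t := by
    rw [Real.rpow_sub_one ht0.ne']; field_simp
  rw [div_lt_iff₀ hcp] at ht1
  rw [e2] at e
  have : 0 < (t : ℝ) * u ^ p := by positivity
  nlinarith

end Crest.Agent.R140
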